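import Vale.Agent.P208.H560.Curve

/-!
# P208 (H560): a doubling rectifiable arc in every infinite-dimensional normed space
-/

namespace Vale.Agent.P208.H560

open scoped NNReal
open Set Filter Topology

/-- the height function: strictly increasing, Lipschitz, arbitrarily flat at the origin -/
theorem exists_height (η : ℕ → ℝ) (hη : ∀ j, 0 < η j) : ∃ h : ℝ → ℝ,
    (∀ s t, s ≤ t → h s ≤ h t) ∧
    (∀ s t, |h s - h t| ≤ |s - t|) ∧
    (∀ j : ℕ, ∀ s ∈ Icc (0 : ℝ) ((1 / 8) ^ j), ∀ t ∈ Icc (0 : ℝ) ((1 / 8) ^ j),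
      |h s - h t| ≤ η j * |s - t|) ∧
    ∀ δ : ℝ, 0 < δ → ∃ c : ℝ, 0 < c ∧ ∀ s t : ℝ, δ ≤ s → δ ≤ t → c * |s - t| ≤ |h s - h t| := by
  classical
  -- a decreasing sequence below `η`
  set μ : ℕ → ℝ := fun j => ∏ i ∈ Finset.range (j + 1), min 1 (η i) with hμ
  have hm : ∀ i, 0 < min 1 (η i) := fun i => lt_min one_pos (hη i)
  have hμ0 : ∀ j, 0 < μ j := fun j => Finset.prod_pos fun i _ => hm i
  have hμ1 : ∀ j, μ j ≤ 1 := fun j =>
    Finset.prod_le_one (fun i _ => (hm i).le) fun i _ => min_le_left _ _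
  have hμη : ∀ i j, i ≤ j → μ j ≤ η i := by
    intro i j hij
    have h1 : i ∈ Finset.range (j + 1) := Finset.mem_range.2 (by omega)
    have h2 : μ j = min 1 (η i) * ∏ l ∈ (Finset.range (j + 1)).erase i, min 1 (η l) :=
      (Finset.mul_prod_erase _ _ h1).symm
    rw [h2]
    have h3 : ∏ l ∈ (Finset.range (j + 1)).erase i, min 1 (η l) ≤ 1 :=
      Finset.prod_le_one (fun i _ => (hm i).le) fun i _ => min_le_left _ _
    calc min 1 (η i) * ∏ l ∈ (Finset.range (j + 1)).erase i, min 1 (η l)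
        ≤ min 1 (η i) * 1 := mul_le_mul_of_nonneg_left h3 (hm i).le
      _ ≤ η i := by rw [mul_one]; exact min_le_right _ _
  set a : ℕ → ℝ := fun i => (1 / 8 : ℝ) ^ (i + 1) with ha
  have ha0 : ∀ i, 0 < a i := fun i => by positivity
  set c : ℕ → ℝ := fun i => μ i * (1 / 2 : ℝ) ^ (i + 1) with hc
  have hc0 : ∀ i, 0 < c i := fun i => by have := hμ0 i; positivity
  have hg : HasSum (fun i : ℕ => (1 / 2 : ℝ) ^ (i + 1)) 1 := by
    have := hasSum_geometric_two' 1
    convert this using 2 with i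
    rw [pow_succ]
    field_simp
    rw [← mul_pow]
    norm_num
  set φ : ℕ → ℝ → ℝ := fun i t => c i * max 0 (t - a i) with hφ
  have hφd : ∀ i s t, s ≤ t → 0 ≤ φ i t - φ i s ∧ φ i t - φ i s ≤ c i * (t - s) := by
    intro i s t hst
    have h1 : max 0 (s - a i) ≤ max 0 (t - a i) := max_le_max le_rfl (by linarith)
    have h2 : max 0 (t - a i) ≤ max 0 (s - a i) + (t - s) := by
      refine max_le ?_ ?_
      · linarith [le_max_left 0 (s - a i)]
      · linarith [le_max_right 0 (s - a i)]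
    simp only [hφ]
    constructor
    · rw [← mul_sub]
      exact mul_nonneg (hc0 i).le (by linarith)
    · rw [← mul_sub]
      exact mul_le_mul_of_nonneg_left (by linarith) (hc0 i).le
  have hφn : ∀ i t, t ≤ a i → φ i t = 0 := by
    intro i t ht
    simp only [hφ]
    rw [max_eq_left (by linarith), mul_zero]
  have hsum : ∀ t, Summable fun i => φ i t := by
    intro t
    refine Summable.of_norm_bounded (g := fun i => (1 / 2 : ℝ) ^ (i + 1) * |t|)
      (hg.summable.mul_right _) fun i => ?_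
    have h1 : max 0 (t - a i) ≤ |t| :=
      max_le (abs_nonneg t) (by linarith [le_abs_self t, ha0 i])
    have h0 : 0 ≤ max 0 (t - a i) := le_max_left _ _
    rw [Real.norm_of_nonneg (mul_nonneg (hc0 i).le h0)]
    have h2 : c i ≤ (1 / 2 : ℝ) ^ (i + 1) :=
      mul_le_of_le_one_left (by positivity) (hμ1 i)
    exact mul_le_mul h2 h1 h0 (by positivity)
  set h : ℝ → ℝ := fun t => ∑' i, φ i t with hh
  have hdiff : ∀ s t, h t - h s = ∑' i, (φ i t - φ i s) := fun s t =>
    ((hsum t).tsum_sub (hsum s)).symm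
  have hsd : ∀ s t, Summable fun i => φ i t - φ i s := fun s t => (hsum t).sub (hsum s)
  have hmono : ∀ s t, s ≤ t → 0 ≤ h t - h s := by
    intro s t hst
    rw [hdiff]
    exact tsum_nonneg fun i => (hφd i s t hst).1
  -- upper bound with a constant
  have hup : ∀ (e : ℝ) (s t : ℝ), 0 ≤ e → s ≤ t →
      (∀ i, φ i t - φ i s ≤ e * ((1 / 2 : ℝ) ^ (i + 1)) * (t - s)) → h t - h s ≤ e * (t - s) := by
    intro e s t he hst hi
    rw [hdiff]
    have h1 : HasSum (fun i : ℕ => e * ((1 / 2 : ℝ) ^ (i + 1)) * (t - s)) (e * 1 * (t - s)) :=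
      (hg.mul_left e).mul_right _
    have h2 := (hsd s t).tsum_le_tsum hi h1.summable
    rw [h1.tsum_eq, mul_one] at h2
    exact h2
  have habs : ∀ (e : ℝ) (S : Set ℝ), (∀ s ∈ S, ∀ t ∈ S, s ≤ t → h t - h s ≤ e * (t - s)) →
      ∀ s ∈ S, ∀ t ∈ S, |h s - h t| ≤ e * |s - t| := by
    intro e S hS s hs t ht
    rcases le_total s t with hst | hst
    · rw [abs_sub_comm, abs_of_nonneg (hmono s t hst), abs_sub_comm,
        abs_of_nonneg (sub_nonneg.2 hst)]
      exact hS s hs t ht hst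
    · rw [abs_of_nonneg (hmono t s hst), abs_of_nonneg (sub_nonneg.2 hst)]
      exact hS t ht s hs hst
  refine ⟨h, ?_, ?_, ?_, ?_⟩
  · exact fun s t hst => sub_nonneg.1 (hmono s t hst)
  · intro s t
    have := habs 1 univ (fun s _ t _ hst => hup 1 s t zero_le_one hst fun i => by
      refine (hφd i s t hst).2.trans ?_
      rw [one_mul]
      refine mul_le_mul_of_nonneg_right ?_ (sub_nonneg.2 hst)
      exact mul_le_of_le_one_left (by positivity) (hμ1 i)) s (mem_univ _) t (mem_univ _)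
    rwa [one_mul] at this
  · intro j
    refine habs (η j) _ fun s hs t ht hst => hup (η j) s t (hη j).le hst fun i => ?_
    rcases Nat.lt_or_ge i j with hij | hij
    · have h1 : (1 / 8 : ℝ) ^ j ≤ a i := pow_le_pow_of_le_one (by norm_num) (by norm_num) hij
      rw [hφn i t (ht.2.trans h1), hφn i s (hs.2.trans h1), sub_zero]
      have := hη j
      have := sub_nonneg.2 hst
      positivity
    · refine (hφd i s t hst).2.trans ?_
      refine mul_le_mul_of_nonneg_right ?_ (sub_nonneg.2 hst)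
      exact mul_le_mul_of_nonneg_right (hμη j i hij) (by positivity)
  · intro δ hδ
    have htend : Tendsto (fun i : ℕ => a i) atTop (𝓝 0) :=
      (tendsto_pow_atTop_nhds_zero_of_lt_one (r := (1 / 8 : ℝ)) (by norm_num)
        (by norm_num)).comp (tendsto_add_atTop_nat 1)
    obtain ⟨i, hi⟩ := (htend.eventually (gt_mem_nhds hδ)).exists
    have hlow : ∀ s t, δ ≤ s → s ≤ t → c i * (t - s) ≤ h t - h s := by
      intro s t hs hst
      rw [hdiff]
      refine le_trans (le_of_eq ?_) ((hsd s t).le_tsum i fun l _ => (hφd l s t hst).1)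
      simp only [hφ]
      rw [max_eq_right (by linarith), max_eq_right (by linarith)]
      ring
    refine ⟨c i, hc0 i, fun s t hs ht => ?_⟩
    rcases le_total s t with hst | hst
    · rw [abs_sub_comm, abs_sub_comm (h s), abs_of_nonneg (hmono s t hst),
        abs_of_nonneg (sub_nonneg.2 hst)]
      exact hlow s t hs hst
    · rw [abs_of_nonneg (hmono t s hst), abs_of_nonneg (sub_nonneg.2 hst)]
      exact hlow t s ht hst

/-- non-embeddability is witnessed by a finite subset -/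
theorem exists_finite_witness {E : Type} [MetricSpace E] (X : Set E) (k : ℕ) (D : ℝ) (hD : 0 < D)
    (h : ¬ Embeds X k D) : ∃ Z : Set E, Z ⊆ X ∧ Z.Finite ∧ ¬ Embeds Z k D := by
  by_contra hcon
  push Not at hcon
  refine h ?_
  have h1 : EmbedsWith (1 / D) X k := by
    refine embedsWith_of_finite _ X k fun Z hZX hZ => ?_
    obtain ⟨f, a, ha, hf⟩ := hcon Z hZX hZ
    have hpos : 0 < (D * a)⁻¹ := by positivity
    refine ⟨fun x => (D * a)⁻¹ • f x, fun x hx y hy => ?_⟩
    obtain ⟨h1, h2⟩ := hf x hx y hy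
    rw [dist_smul₀, Real.norm_of_nonneg hpos.le]
    constructor
    · calc 1 / D * dist x y = (D * a)⁻¹ * (a * dist x y) := by field_simp
        _ ≤ _ := mul_le_mul_of_nonneg_left h1 hpos.le
    · calc (D * a)⁻¹ * dist (f x) (f y) ≤ (D * a)⁻¹ * (D * a * dist x y) :=
            mul_le_mul_of_nonneg_left h2 hpos.le
        _ = dist x y := by field_simp
  obtain ⟨f, hf⟩ := h1
  refine ⟨f, 1 / D, by positivity, fun x hx y hy => ⟨(hf x hx y hy).1, ?_⟩⟩
  refine (hf x hx y hy).2.trans (le_of_eq ?_)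
  field_simp

/-- subsets of `X + ℝ f` are doubling, if `f` is transversal to the space of `X` -/
theorem doubling_cylinder {V Y : Type*} [NormedAddCommGroup V] [NormedSpace ℝ V]
    [NormedAddCommGroup Y] [NormedSpace ℝ Y] (ι : V → ℝ → Y)
    (h1 : ∀ x x' t t', dist (ι x t) (ι x' t') ≤ dist x x' + |t - t'|)
    (h2 : ∀ x x' t t', |t - t'| ≤ dist (ι x t) (ι x' t'))
    (h3 : ∀ x x' t t', dist x x' ≤ 2 * dist (ι x t) (ι x' t'))
    {a : ℕ} {X : Set V} (hX : DoublingWith a X) :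
    DoublingWith (5 * (a * a * a)) {y | ∃ x ∈ X, ∃ t, y = ι x t} := by
  classical
  rintro _ ⟨x, hx, t, rfl⟩ r hr
  -- an `r / 4`-net of the ball of radius `2 r` in `X`
  have hnet : ∃ T : Finset V, T.card ≤ a * a * a ∧ (∀ z ∈ T, z ∈ X) ∧
      ∀ y ∈ X, dist y x ≤ 2 * r → ∃ z ∈ T, dist y z ≤ r / 4 := by
    obtain ⟨T, c1, c2, c3⟩ := hX x hx (2 * r) (by positivity)
    have step : ∀ (ρ : ℝ), 0 < ρ → ∃ T' : V → Finset V, (∀ z, (T' z).card ≤ a) ∧
        (∀ z, ∀ w ∈ T' z, w ∈ X) ∧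
        ∀ z ∈ X, ∀ y ∈ X, dist y z ≤ ρ → ∃ w ∈ T' z, dist y w ≤ ρ / 2 := by
      intro ρ hρ
      have h' : ∀ z : V, ∃ T' : Finset V, T'.card ≤ a ∧ (∀ w ∈ T', w ∈ X) ∧
          (z ∈ X → ∀ u ∈ X, dist u z ≤ ρ → ∃ w ∈ T', dist u w ≤ ρ / 2) := by
        intro z
        by_cases hz : z ∈ X
        · obtain ⟨T', a1, a2, a3⟩ := hX z hz ρ hρ
          exact ⟨T', a1, a2, fun _ => a3⟩
        · exact ⟨∅, by simp, by simp, fun hz' => absurd hz' hz⟩
      choose T' b1 b2 b3 using h'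
      exact ⟨T', b1, b2, b3⟩
    obtain ⟨T1, d1, d2, d3⟩ := step r hr
    obtain ⟨T2, e1, e2, e3⟩ := step (r / 2) (by positivity)
    refine ⟨(T.biUnion T1).biUnion T2, ?_, ?_, ?_⟩
    · refine (Finset.card_biUnion_le_card_mul _ _ a fun z _ => e1 z).trans ?_
      refine Nat.mul_le_mul_right _ ?_
      refine (Finset.card_biUnion_le_card_mul _ _ a fun z _ => d1 z).trans ?_
      exact Nat.mul_le_mul_right _ c1
    · intro w hw
      obtain ⟨z, _, hz⟩ := Finset.mem_biUnion.1 hw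
      exact e2 z w hz
    · intro y hy hyr
      obtain ⟨z, hz, hyz⟩ := c3 y hy hyr
      obtain ⟨w, hw, hyw⟩ := d3 z (c2 z hz) y hy (by linarith)
      obtain ⟨u, hu, hyu⟩ := e3 w (d2 z w hw) y hy hyw
      exact ⟨u, Finset.mem_biUnion.2 ⟨w, Finset.mem_biUnion.2 ⟨z, hz, hw⟩, hu⟩, by linarith⟩
  obtain ⟨T, c1, c2, c3⟩ := hnet
  set τ : Fin 5 → ℝ := fun i => t + ((i : ℕ) - 2 : ℝ) * (r / 2) with hτ
  refine ⟨(Finset.univ ×ˢ T).image fun q : Fin 5 × V => ι q.2 (τ q.1), ?_, ?_, ?_⟩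
  · refine Finset.card_image_le.trans ?_
    rw [Finset.card_product, Finset.card_univ, Fintype.card_fin]
    exact Nat.mul_le_mul_left _ c1
  · intro w hw
    obtain ⟨q, hq, rfl⟩ := Finset.mem_image.1 hw
    exact ⟨q.2, c2 _ (Finset.mem_product.1 hq).2, _, rfl⟩
  · rintro _ ⟨x', hx', t', rfl⟩ hd
    have g1 : |t' - t| ≤ r := (h2 x' x t' t).trans hd
    have g2 : dist x' x ≤ 2 * r := (h3 x' x t' t).trans (by linarith)
    obtain ⟨z, hz, hxz⟩ := c3 x' hx' g2
    have g3 : ∃ i : Fin 5, |t' - τ i| ≤ r / 4 := by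
      rw [abs_le] at g1
      by_cases q1 : t' - t ≤ -(3 / 4) * r
      · refine ⟨0, ?_⟩
        simp only [hτ]
        rw [abs_le]; constructor <;> norm_num <;> linarith [g1.1]
      by_cases q2 : t' - t ≤ -(1 / 4) * r
      · refine ⟨1, ?_⟩
        simp only [hτ]
        rw [abs_le]; constructor <;> norm_num <;> linarith
      by_cases q3 : t' - t ≤ (1 / 4) * r
      · refine ⟨2, ?_⟩
        simp only [hτ]
        rw [abs_le]; constructor <;> norm_num <;> linarith
      by_cases q4 : t' - t ≤ (3 / 4) * r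
      · refine ⟨3, ?_⟩
        simp only [hτ]
        rw [abs_le]; constructor <;> norm_num <;> linarith
      · refine ⟨4, ?_⟩
        simp only [hτ]
        rw [abs_le]; constructor <;> norm_num <;> linarith [g1.2]
    obtain ⟨i, hi⟩ := g3
    refine ⟨ι z (τ i), Finset.mem_image.2 ⟨(i, z), Finset.mem_product.2 ⟨Finset.mem_univ _, hz⟩,
      rfl⟩, ?_⟩
    refine (h1 _ _ _ _).trans ?_
    linarith

end Vale.Agent.P208.H560
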