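import Vale.Agent.P208.H560.Lift

/-!
# P208 (H560): a uniformly discrete doubling set without quasi-isometric embedding
-/

namespace Vale.Agent.P208.H560

open Set Filter Topology

/-- gluing with growing pieces -/
theorem glue_doubling_grow {H : Type*} [PseudoMetricSpace H] (lam : ℕ) (P : ℕ → Set H)
    (p : ℕ → H) (T ρ : ℕ → ℝ) (hT0 : ∀ j, 0 < T j) (hT : ∀ j, 8 * T j ≤ T (j + 1))
    (hρ : ∀ j, 50 * ρ j ≤ T j) (hP : ∀ j, ∀ x ∈ P j, dist x (p j) ≤ ρ j)
    (hd : ∀ i j, dist (p i) (p j) = |T i - T j|)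
    (hdoub : ∀ j, DoublingWith lam (P j)) : DoublingWith (max lam 2) (⋃ j, P j) := by
  classical
  intro x hx r hr
  obtain ⟨j, hxj⟩ := Set.mem_iUnion.1 hx
  by_cases hone : ∀ i, ∀ y ∈ P i, dist y x ≤ r → i = j
  · obtain ⟨S, h1, h2, h3⟩ := hdoub j x hxj r hr
    refine ⟨S, h1.trans (le_max_left _ _), fun z hz => Set.mem_iUnion.2 ⟨j, h2 z hz⟩, ?_⟩
    intro y hy hyr
    obtain ⟨i, hyi⟩ := Set.mem_iUnion.1 hy
    have := hone i y hyi hyr
    subst this
    exact h3 y hyi hyr
  · push Not at hone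
    obtain ⟨i₀, y₀, hy₀, hy₀r, hij⟩ := hone
    have pw : ∀ a b : ℕ, a < b → 8 * T a ≤ T b := by
      intro a b hab
      induction b with
      | zero => omega
      | succ b ih =>
        rcases Nat.lt_succ_iff_lt_or_eq.1 hab with h | h
        · have h1 := ih h
          have h2 := hT b
          have h3 := hT0 b
          linarith
        · subst h
          exact hT a
    have grow : ∀ i, (8 : ℝ) ^ i * T 0 ≤ T i := by
      intro i
      induction i with
      | zero => simp
      | succ i ih =>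
        have := hT i
        rw [pow_succ]
        linarith
    have key : ∀ i, ∀ y ∈ P i, dist y x ≤ r → i ≠ j → 4 / 5 * T i ≤ r ∧ 4 / 5 * T j ≤ r := by
      intro i y hy hyr hne
      have a1 := hP i y hy
      have a2 := hP j x hxj
      have a3 := dist_triangle4 (p i) y x (p j)
      rw [dist_comm (p i) y, hd] at a3
      have b1 := hρ i
      have b2 := hρ j
      have b3 := hT0 i
      have b4 := hT0 j
      rcases lt_or_gt_of_ne hne with h | h
      · have b5 := pw _ _ h
        rw [abs_of_nonpos (by linarith)] at a3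
        constructor <;> linarith
      · have b5 := pw _ _ h
        rw [abs_of_nonneg (by linarith)] at a3
        constructor <;> linarith
    -- the set of indices meeting the ball is bounded
    have hbdd : ∃ B : ℕ, ∀ i, (∃ y ∈ P i, dist y x ≤ r) → i ≤ B := by
      obtain ⟨B, hB⟩ := pow_unbounded_of_one_lt (5 / 4 * r / T 0) (by norm_num : (1 : ℝ) < 8)
      refine ⟨max B j, ?_⟩
      rintro i ⟨y, hy, hyr⟩
      by_contra hcon
      push Not at hcon
      have hij' : i ≠ j := by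
        intro h; subst h; exact absurd (le_max_right B i) (not_le.2 hcon)
      have h1 := (key i y hy hyr hij').1
      have h2 : (8 : ℝ) ^ B ≤ 8 ^ i :=
        pow_le_pow_right₀ (by norm_num) ((le_max_left B j).trans hcon.le)
      rw [div_lt_iff₀ (hT0 0)] at hB
      have h3 := grow i
      have h4 : (8 : ℝ) ^ B * T 0 ≤ 8 ^ i * T 0 := mul_le_mul_of_nonneg_right h2 (hT0 0).le
      linarith
    obtain ⟨B, hB⟩ := hbdd
    obtain ⟨I, hI, hImax⟩ : ∃ I, (∃ y ∈ P I, dist y x ≤ r) ∧
        ∀ i, (∃ y ∈ P i, dist y x ≤ r) → i ≤ I := by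
      refine ⟨Nat.findGreatest (fun n => ∃ y ∈ P n, dist y x ≤ r) B, ?_, ?_⟩
      · exact Nat.findGreatest_spec (P := fun n => ∃ y ∈ P n, dist y x ≤ r)
          (hB i₀ ⟨y₀, hy₀, hy₀r⟩) ⟨y₀, hy₀, hy₀r⟩
      · intro i hi
        exact Nat.le_findGreatest (hB i hi) hi
    have hjI : j ≤ I := hImax j ⟨x, hxj, by simpa only [dist_self] using hr.le⟩
    have hi₀I : i₀ ≤ I := hImax i₀ ⟨y₀, hy₀, hy₀r⟩
    have hI5 : 4 / 5 * T I ≤ r := by
      rcases eq_or_lt_of_le hjI with h | h
      · have := (key i₀ y₀ hy₀ hy₀r hij).2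
        rwa [h] at this
      · obtain ⟨y, hy, hyr⟩ := hI
        exact (key I y hy hyr h.ne').1
    have hclass : ∀ (Q : H → Prop), (∀ y y', Q y → Q y' → dist y y' ≤ r / 2) →
        ∃ S : Finset H, S.card ≤ 1 ∧ (∀ z ∈ S, z ∈ ⋃ j, P j) ∧
          ∀ y ∈ ⋃ j, P j, Q y → ∃ z ∈ S, dist y z ≤ r / 2 := by
      intro Q hQ
      by_cases hne : ∃ y ∈ ⋃ j, P j, Q y
      · obtain ⟨y, hy, hQy⟩ := hne
        refine ⟨{y}, by simp, ?_, fun y' _ hQ' => ⟨y, by simp, hQ _ _ hQ' hQy⟩⟩
        intro z hz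
        rw [Finset.mem_singleton.1 hz]
        exact hy
      · push Not at hne
        exact ⟨∅, by simp, by simp, fun y hy hQ' => absurd hQ' (hne y hy)⟩
    obtain ⟨S1, c1, m1, k1⟩ := hclass (fun y => y ∈ P I) (by
      intro y y' hy hy'
      have a1 := hP I y hy
      have a2 := hP I y' hy'
      have := dist_triangle_right y y' (p I)
      have := hρ I
      have := hT0 I
      linarith)
    obtain ⟨S2, c2, m2, k2⟩ := hclass (fun y => ∃ i, i < I ∧ y ∈ P i) (by
      rintro y y' ⟨i, hi, hy⟩ ⟨i', hi', hy'⟩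
      have a1 := hP i y hy
      have a2 := hP i' y' hy'
      have b1 := pw _ _ hi
      have b2 := pw _ _ hi'
      have b3 := hT0 i
      have b4 := hT0 i'
      have b5 := hρ i
      have b6 := hρ i'
      have a3 := dist_triangle4 y (p i) (p i') y'
      rw [hd, dist_comm (p i') y'] at a3
      have a4 : |T i - T i'| ≤ 1 / 8 * T I := by
        rw [abs_le]; constructor <;> linarith
      linarith)
    refine ⟨S1 ∪ S2, ?_, ?_, ?_⟩
    · calc (S1 ∪ S2).card ≤ S1.card + S2.card := Finset.card_union_le _ _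
        _ ≤ 1 + 1 := add_le_add c1 c2
        _ ≤ max lam 2 := le_max_right _ _
    · intro z hz
      rcases Finset.mem_union.1 hz with h | h
      · exact m1 z h
      · exact m2 z h
    · intro y hy hyr
      obtain ⟨i, hyi⟩ := Set.mem_iUnion.1 hy
      rcases (hImax i ⟨y, hyi, hyr⟩).eq_or_lt with h | h
      · obtain ⟨z, hz, hz'⟩ := k1 y hy (h ▸ hyi)
        exact ⟨z, Finset.mem_union_left _ hz, hz'⟩
      · obtain ⟨z, hz, hz'⟩ := k2 y hy ⟨i, h, hyi⟩
        exact ⟨z, Finset.mem_union_right _ hz, hz'⟩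

/-- **Every infinite-dimensional normed space contains a `1`-separated doubling set without
quasi-isometric embedding into any `ℝ^k`.** -/
theorem exists_coarse {Y : Type} [NormedAddCommGroup Y] [NormedSpace ℝ Y]
    (hY : ¬ FiniteDimensional ℝ Y) : ∃ X : Set Y,
      (∀ x ∈ X, ∀ y ∈ X, x ≠ y → 1 ≤ dist x y) ∧ DoublingWith D257.lam0 X ∧
      ∀ (k : ℕ) (L C : ℝ) (f : Y → EuclideanSpace ℝ (Fin k)), 0 < L →
        ¬ ∀ x ∈ X, ∀ y ∈ X, dist x y / L - C ≤ dist (f x) (f y) ∧
          dist (f x) (f y) ≤ L * dist x y + C := by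
  classical
  -- a unit vector
  have hne : ∃ e0 : Y, ‖e0‖ = 1 := by
    obtain ⟨A, hA⟩ := D257.dvoretzky hY 1 one_pos
    set v : EuclideanSpace ℝ (Fin 1) := EuclideanSpace.single 0 1 with hv
    have h1 : ‖v‖ = 1 := by simp [hv]
    have h2 : 0 < ‖A v‖ := by
      have := (hA v).1
      linarith
    refine ⟨‖A v‖⁻¹ • A v, ?_⟩
    rw [norm_smul, norm_inv, norm_norm, inv_mul_cancel₀ h2.ne']
  obtain ⟨e0, he0n⟩ := hne
  have h' : ∀ j : ℕ, ∃ (m : ℕ) (X : Set (EuclideanSpace ℝ (Fin m))) (s R : ℝ)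
      (x₀ : EuclideanSpace ℝ (Fin m)), 0 < s ∧ 0 ≤ R ∧
      (∀ x ∈ X, 2 * s * dist x x₀ ≤ R) ∧
      (∀ x ∈ X, ∀ y ∈ X, x ≠ y → (j : ℝ) + 1 ≤ s * dist x y) ∧
      DoublingWith (69 * covC * (69 * covC)) X ∧ ¬ EmbedsWith (1 / (2 * ((j : ℝ) + 1))) X j := by
    intro j
    obtain ⟨m, X, h1, ⟨x₀, _⟩, h3, h4⟩ := D257.bad_finite j
    obtain ⟨R, hR⟩ := (Metric.isBounded_iff_subset_closedBall x₀).1 h1.isBounded
    obtain ⟨δ, hδ, hδ2⟩ := exists_min_dist h1
    have hs : 0 < ((j : ℝ) + 1) / δ := by positivity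
    refine ⟨m, X, ((j : ℝ) + 1) / δ, 2 * (((j : ℝ) + 1) / δ) * |R|, x₀, hs, by positivity, ?_, ?_,
      h3, h4⟩
    · intro x hx
      have h5 := Metric.mem_closedBall.1 (hR hx)
      exact mul_le_mul_of_nonneg_left (h5.trans (le_abs_self R)) (by positivity)
    · intro x hx y hy hxy
      have h5 := hδ2 x hx y hy hxy
      calc (j : ℝ) + 1 = ((j : ℝ) + 1) / δ * δ := by field_simp
        _ ≤ _ := mul_le_mul_of_nonneg_left h5 hs.le
  choose m X s R x₀ hs hR0 hbd hsep hdoub hemb using h'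
  choose A hA using fun j => D257.dvoretzky hY (m j) one_pos
  -- the positions
  set T : ℕ → ℝ := fun j => Nat.rec (50 * (R 0 + 1)) (fun i t => 8 * t + 50 * (R (i + 1) + 1)) j
    with hTdef
  have hTs : ∀ j, T (j + 1) = 8 * T j + 50 * (R (j + 1) + 1) := fun j => rfl
  have hT50 : ∀ j, 50 * (R j + 1) ≤ T j := by
    intro j
    induction j with
    | zero => exact le_rfl
    | succ j ih =>
      rw [hTs]
      have := hR0 j
      linarith
  have hT0 : ∀ j, 0 < T j := fun j => by have := hT50 j; have := hR0 j; linarith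
  have hT8 : ∀ j, 8 * T j ≤ T (j + 1) := fun j => by
    rw [hTs]
    have := hR0 (j + 1)
    linarith
  set p : ℕ → Y := fun j => T j • e0 with hp
  set φ : ∀ j, EuclideanSpace ℝ (Fin (m j)) → Y :=
    fun j x => p j + s j • (A j x - A j (x₀ j)) with hφ
  have hφs : ∀ j x y, dist (φ j x) (φ j y) = s j * ‖A j (x - y)‖ := by
    intro j x y
    have : φ j x - φ j y = s j • (A j (x - y)) := by
      simp only [hφ]
      rw [add_sub_add_left_eq_sub, ← smul_sub, map_sub]
      congr 1
      abel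
    rw [dist_eq_norm, this, norm_smul, Real.norm_of_nonneg (hs j).le]
  have hφ1 : ∀ j x y, s j * dist x y ≤ dist (φ j x) (φ j y) := by
    intro j x y
    rw [hφs, dist_eq_norm]
    exact mul_le_mul_of_nonneg_left (hA j (x - y)).1 (hs j).le
  have hφ2 : ∀ j x y, dist (φ j x) (φ j y) ≤ 2 * s j * dist x y := by
    intro j x y
    rw [hφs, dist_eq_norm]
    have h1 := mul_le_mul_of_nonneg_left (hA j (x - y)).2 (hs j).le
    have h2 : s j * ((1 + 1) * ‖x - y‖) = 2 * s j * ‖x - y‖ := by ring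
    linarith
  have hφp : ∀ j x, dist (φ j x) (p j) ≤ 2 * s j * dist x (x₀ j) := by
    intro j x
    have h1 : p j = φ j (x₀ j) := by simp [hφ]
    conv_lhs => rw [h1]
    exact hφ2 j x (x₀ j)
  have hpd : ∀ i j, dist (p i) (p j) = |T i - T j| := by
    intro i j
    rw [dist_eq_norm]
    simp only [hp]
    rw [← sub_smul, norm_smul, he0n, mul_one, Real.norm_eq_abs]
  have hP : ∀ j, ∀ x ∈ φ j '' X j, dist x (p j) ≤ R j := by
    rintro j _ ⟨x, hx, rfl⟩
    exact (hφp j x).trans (hbd j x hx)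
  have hD : DoublingWith D257.lam0 (⋃ j, φ j '' X j) :=
    glue_doubling_grow _ (fun j => φ j '' X j) p T R hT0 hT8
      (fun j => by have := hT50 j; linarith) hP hpd
      (fun j => D257.doubling_image (hdoub j) (φ j) (s j) (hs j) (hφ1 j) (hφ2 j))
  have pw : ∀ a b : ℕ, a < b → 8 * T a ≤ T b := by
    intro a b hab
    induction b with
    | zero => omega
    | succ b ih =>
      rcases Nat.lt_succ_iff_lt_or_eq.1 hab with h | h
      · have h1 := ih h
        have h2 := hT8 b
        have h3 := hT0 b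
        linarith
      · subst h
        exact hT8 a
  have hcross : ∀ i j, i < j → ∀ x ∈ φ i '' X i, ∀ y ∈ φ j '' X j, 1 ≤ dist x y := by
    intro i j hij x hx y hy
    have a1 := hP i x hx
    have a2 := hP j y hy
    have a3 := dist_triangle4 (p i) x y (p j)
    rw [dist_comm (p i) x, hpd] at a3
    have b1 := hT50 i
    have b2 := hT50 j
    have b3 := hR0 i
    have b4 := hR0 j
    have b5 := pw _ _ hij
    rw [abs_of_nonpos (by linarith)] at a3
    linarith
  refine ⟨⋃ j, φ j '' X j, ?_, hD, ?_⟩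
  · intro x hx y hy hxy
    obtain ⟨i, hi⟩ := mem_iUnion.1 hx
    obtain ⟨j, hj⟩ := mem_iUnion.1 hy
    rcases lt_trichotomy i j with h | h | h
    · exact hcross i j h x hi y hj
    · subst h
      obtain ⟨u, hu, rfl⟩ := hi
      obtain ⟨v, hv, rfl⟩ := hj
      have huv : u ≠ v := fun h => hxy (by rw [h])
      have h1 := hsep i u hu v hv huv
      have h2 := hφ1 i u v
      have h3 : (0 : ℝ) ≤ i := Nat.cast_nonneg i
      linarith
    · rw [dist_comm]
      exact hcross j i h y hj x hi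
  · intro k L C f hL hf
    obtain ⟨j, hj⟩ := exists_nat_ge (max (k : ℝ) (max (2 * L * |C|) (2 * L ^ 2 + 1)))
    have hkj : k ≤ j := by exact_mod_cast (le_max_left _ _).trans hj
    have hj2 : 2 * L * |C| ≤ j := ((le_max_left _ _).trans (le_max_right _ _)).trans hj
    have hj3 : 2 * L ^ 2 + 1 ≤ (j : ℝ) + 1 := by
      have := ((le_max_right (2 * L * |C|) (2 * L ^ 2 + 1)).trans (le_max_right _ _)).trans hj
      linarith
    refine D257.not_embeds hkj hj3 (X j) (φ j) (hs j) (hφ1 j) (hφ2 j) (hemb j) (φ j '' X j)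
      (fun x hx => ⟨x, hx, rfl⟩) ⟨f, 1 / (2 * L), by positivity, ?_⟩
    intro x hx y hy
    by_cases hxy : x = y
    · rw [hxy, dist_self, dist_self, mul_zero, mul_zero]
      exact ⟨le_rfl, le_rfl⟩
    · obtain ⟨h1, h2⟩ := hf x (mem_iUnion.2 ⟨j, hx⟩) y (mem_iUnion.2 ⟨j, hy⟩)
      have h3 : (j : ℝ) + 1 ≤ dist x y := by
        obtain ⟨u, hu, rfl⟩ := hx
        obtain ⟨v, hv, rfl⟩ := hy
        have huv : u ≠ v := fun h => hxy (by rw [h])
        exact (hsep j u hu v hv huv).trans (hφ1 j u v)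
      have h4 : C ≤ dist x y / (2 * L) := by
        rw [le_div_iff₀ (by positivity)]
        have h5 : C * (2 * L) ≤ |C| * (2 * L) :=
          mul_le_mul_of_nonneg_right (le_abs_self C) (by positivity)
        linarith
      have h6 : dist x y / L = 2 * (dist x y / (2 * L)) := by
        field_simp
      constructor
      · calc 1 / (2 * L) * dist x y = dist x y / (2 * L) := by ring
          _ ≤ dist x y / L - C := by linarith
          _ ≤ _ := h1
      · calc dist (f x) (f y) ≤ L * dist x y + dist x y / (2 * L) := by linarith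
          _ = (2 * L ^ 2 + 1) * (1 / (2 * L)) * dist x y := by
            field_simp

end Vale.Agent.P208.H560
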