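import Vale.Agent.P208.H560.Layer

/-!
# P208 (H560): a doubling Lipschitz curve in every infinite-dimensional normed space
-/

namespace Vale.Agent.P208.H560

open scoped NNReal
open Set

/-- the union of two doubling sets is doubling -/
theorem doubling_union {E : Type*} [PseudoMetricSpace E] {a b : ℕ} {A B : Set E}
    (hA : DoublingWith a A) (hB : DoublingWith b B) :
    DoublingWith (a + a * a + (b + b * b)) (A ∪ B) := by
  classical
  -- a ball of radius `r` around any point covers a doubling set by `a * a` balls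
  have key : ∀ (l : ℕ) (C : Set E), DoublingWith l C → ∀ x : E, ∀ r : ℝ, 0 < r →
      ∃ T : Finset E, T.card ≤ l * l ∧ (∀ z ∈ T, z ∈ C) ∧
        ∀ y ∈ C, dist y x ≤ r → ∃ z ∈ T, dist y z ≤ r / 2 := by
    intro l C hC x r hr
    by_cases hne : ∃ c ∈ C, dist c x ≤ r
    · obtain ⟨c, hc, hcx⟩ := hne
      obtain ⟨T, h1, h2, h3⟩ := hC c hc (2 * r) (by positivity)
      have h' : ∀ z : E, ∃ T' : Finset E, T'.card ≤ l ∧ (∀ w ∈ T', w ∈ C) ∧
          (z ∈ C → ∀ u ∈ C, dist u z ≤ r → ∃ w ∈ T', dist u w ≤ r / 2) := by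
        intro z
        by_cases hz : z ∈ C
        · obtain ⟨T', a1, a2, a3⟩ := hC z hz r hr
          exact ⟨T', a1, a2, fun _ => a3⟩
        · exact ⟨∅, by simp, by simp, fun hz' => absurd hz' hz⟩
      choose T' b1 b2 b3 using h'
      refine ⟨T.biUnion T', (Finset.card_biUnion_le_card_mul _ _ l fun z _ => b1 z).trans
        (Nat.mul_le_mul_right _ h1), ?_, ?_⟩
      · intro w hw
        obtain ⟨z, _, hw'⟩ := Finset.mem_biUnion.1 hw
        exact b2 z w hw'
      · intro y hy hyr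
        have h4 : dist y c ≤ 2 * r := by
          have := dist_triangle_right y c x
          linarith
        obtain ⟨z, hz, hyz⟩ := h3 y hy h4
        obtain ⟨w, hw, hyw⟩ := b3 z (h2 z hz) y hy (by linarith)
        exact ⟨w, Finset.mem_biUnion.2 ⟨z, hz, hw⟩, hyw⟩
    · push Not at hne
      exact ⟨∅, by simp, by simp, fun y hy hyr => absurd hyr (not_le.2 (hne y hy))⟩
  intro x _ r hr
  obtain ⟨T, h1, h2, h3⟩ := key a A hA x r hr
  obtain ⟨S, g1, g2, g3⟩ := key b B hB x r hr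
  refine ⟨T ∪ S, ?_, ?_, ?_⟩
  · calc (T ∪ S).card ≤ T.card + S.card := Finset.card_union_le _ _
      _ ≤ a * a + b * b := add_le_add h1 g1
      _ ≤ a + a * a + (b + b * b) := by omega
  · intro z hz
    rcases Finset.mem_union.1 hz with h | h
    · exact Or.inl (h2 z h)
    · exact Or.inr (g2 z h)
  · rintro y (hy | hy) hyr
    · obtain ⟨z, hz, hyz⟩ := h3 y hy hyr
      exact ⟨z, Finset.mem_union_left _ hz, hyz⟩
    · obtain ⟨z, hz, hyz⟩ := g3 y hy hyr
      exact ⟨z, Finset.mem_union_right _ hz, hyz⟩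

/-- subsets of a line are doubling -/
theorem doubling_line {Y : Type*} [NormedAddCommGroup Y] [NormedSpace ℝ Y] (e0 : Y)
    (he : ‖e0‖ = 1) (S : Set ℝ) : DoublingWith (2 * 2) ((fun t : ℝ => t • e0) '' S) := by
  classical
  have hd : ∀ s t : ℝ, dist (s • e0) (t • e0) = |s - t| := by
    intro s t
    rw [dist_eq_norm, ← sub_smul, norm_smul, he, mul_one, Real.norm_eq_abs]
  have h1 : DoublingWith 2 (range fun t : ℝ => t • e0) := by
    rintro _ ⟨t, rfl⟩ r hr
    refine ⟨{(t - r / 2) • e0, (t + r / 2) • e0}, Finset.card_le_two, ?_, ?_⟩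
    · intro z hz
      rcases Finset.mem_insert.1 hz with h | h
      · exact ⟨_, h.symm⟩
      · exact ⟨_, (Finset.mem_singleton.1 h).symm⟩
    · rintro _ ⟨s, rfl⟩ hs
      rw [hd, abs_le] at hs
      rcases le_total s t with h | h
      · refine ⟨(t - r / 2) • e0, by simp, ?_⟩
        rw [hd, abs_le]
        constructor <;> linarith [hs.1, hs.2]
      · refine ⟨(t + r / 2) • e0, by simp, ?_⟩
        rw [hd, abs_le]
        constructor <;> linarith [hs.1, hs.2]
  exact h1.subset (image_subset_range _ _)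

/-- the base function: `8⁻ʲ` on `[2·8⁻ʲ, 3·8⁻ʲ]`, Lipschitz -/
theorem exists_base : ∃ b : ℝ → ℝ, LipschitzWith 1 b ∧
    ∀ j : ℕ, ∀ t ∈ Icc (2 * (1 / 8 : ℝ) ^ j) (3 * (1 / 8 : ℝ) ^ j), b t = (1 / 8 : ℝ) ^ j := by
  classical
  have pos : ∀ a : ℕ, (0 : ℝ) < (1 / 8) ^ a := fun a => by positivity
  have pw : ∀ a b : ℕ, a < b → (1 / 8 : ℝ) ^ b ≤ 1 / 8 * (1 / 8 : ℝ) ^ a := by
    intro a b hab
    have : (1 / 8 : ℝ) ^ b ≤ (1 / 8) ^ (a + 1) :=
      pow_le_pow_of_le_one (by norm_num) (by norm_num) hab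
    rwa [pow_succ, mul_comm] at this
  set I : ℕ → Set ℝ := fun j => Icc (2 * (1 / 8 : ℝ) ^ j) (3 * (1 / 8 : ℝ) ^ j) with hI
  set f : ℝ → ℝ := fun t => if h : ∃ j, t ∈ I j then (1 / 8 : ℝ) ^ h.choose else 0 with hf
  have hdisj : ∀ i j t, t ∈ I i → t ∈ I j → i = j := by
    intro i j t hi hj
    rcases lt_trichotomy i j with h | h | h
    · have := pw i j h
      have := pos i
      linarith [hi.1, hj.2]
    · exact h
    · have := pw j i h
      have := pos j
      linarith [hi.2, hj.1]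
  have hfI : ∀ j, ∀ t ∈ I j, f t = (1 / 8 : ℝ) ^ j := by
    intro j t ht
    have h : ∃ j, t ∈ I j := ⟨j, ht⟩
    simp only [hf, dif_pos h]
    rw [hdisj _ _ t h.choose_spec ht]
  have hord : ∀ i j, i < j → ∀ t ∈ I i, ∀ t' ∈ I j, |f t - f t'| ≤ |t - t'| := by
    intro i j hij t ht t' ht'
    rw [hfI i t ht, hfI j t' ht']
    have h1 := pw i j hij
    have h2 := pos i
    have h3 := pos j
    rw [abs_of_nonneg (by linarith), abs_of_nonneg (by linarith [ht.1, ht'.2])]
    linarith [ht.1, ht'.2]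
  have hlip : LipschitzOnWith 1 f (⋃ j, I j) := by
    refine LipschitzOnWith.of_dist_le_mul fun t ht t' ht' => ?_
    obtain ⟨i, hi⟩ := mem_iUnion.1 ht
    obtain ⟨j, hj⟩ := mem_iUnion.1 ht'
    rw [NNReal.coe_one, one_mul, Real.dist_eq, Real.dist_eq]
    rcases lt_trichotomy i j with h | h | h
    · exact hord i j h t hi t' hj
    · subst h
      rw [hfI i t hi, hfI i t' hj, sub_self, abs_zero]
      exact abs_nonneg _
    · rw [abs_sub_comm, abs_sub_comm t t']
      exact hord j i h t' hj t hi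
  obtain ⟨b, hb1, hb2⟩ := hlip.extend_real
  refine ⟨b, hb1, fun j t ht => ?_⟩
  rw [← hb2 (mem_iUnion.2 ⟨j, ht⟩), hfI j t ht]

/-- the absolute doubling constant of the curve, before passing to open balls -/
def lamB : ℕ := 2 * 2 + 2 * 2 * (2 * 2) + (D257.lam0 + D257.lam0 * D257.lam0)

/-- **Every infinite-dimensional normed space contains a doubling Lipschitz curve without
bi-Lipschitz embeddings into finite-dimensional spaces**, in a local form. -/
theorem exists_curve {Y : Type} [NormedAddCommGroup Y] [NormedSpace ℝ Y]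
    (hY : ¬ FiniteDimensional ℝ Y) : ∃ γ : ℝ → Y, LipschitzWith 9 γ ∧
      DoublingWith lamB (γ '' Icc (0 : ℝ) 1) ∧
      ∀ (j k : ℕ) (D : ℝ), k ≤ j → D ≤ (j : ℝ) + 1 →
        ¬ Embeds (γ '' Icc (0 : ℝ) ((1 / 8) ^ j)) k D := by
  classical
  -- a unit vector
  have hne : ∃ e0 : Y, ‖e0‖ = 1 := by
    obtain ⟨A, hA⟩ := D257.dvoretzky hY 1 one_pos
    set v : EuclideanSpace ℝ (Fin 1) := EuclideanSpace.single 0 1 with hv
    have h1 : ‖v‖ = 1 := by simp [hv]
    have h2 : 0 < ‖A v‖ := by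
      have := (hA v).1
      linarith
    refine ⟨‖A v‖⁻¹ • A v, ?_⟩
    rw [norm_smul, norm_inv, norm_norm, inv_mul_cancel₀ h2.ne']
  obtain ⟨e0, he0n⟩ := hne
  have pos : ∀ a : ℕ, (0 : ℝ) < (1 / 8) ^ a := fun a => by positivity
  have pw : ∀ a b : ℕ, a < b → (1 / 8 : ℝ) ^ b ≤ 1 / 8 * (1 / 8 : ℝ) ^ a := by
    intro a b hab
    have : (1 / 8 : ℝ) ^ b ≤ (1 / 8) ^ (a + 1) :=
      pow_le_pow_of_le_one (by norm_num) (by norm_num) hab
    rwa [pow_succ, mul_comm] at this
  -- the pieces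
  have h' : ∀ j : ℕ, ∃ (m : ℕ) (K : ℝ≥0) (L : ℝ → EuclideanSpace ℝ (Fin m)), IsLoop K L ∧
      DoublingWith (69 * covC) (L '' Icc (0 : ℝ) 1) ∧
      ¬ EmbedsWith (1 / (2 * ((j : ℝ) + 1))) (L '' Icc (0 : ℝ) 1) j := by
    intro j
    obtain ⟨m, X, ⟨K, L, h1, rfl⟩, h2, h3⟩ :=
      exists_bad_loop j (1 / (2 * ((j : ℝ) + 1))) (by positivity)
    exact ⟨m, K, L, h1, h2, h3⟩
  choose m K L hL hdoub hemb using h'
  choose A hA using fun j => D257.dvoretzky hY (m j) one_pos
  set s : ℕ → ℝ := fun j => (1 / 8 : ℝ) ^ j / (100 * (K j + 1)) with hs'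
  have hs : ∀ j, 0 < s j := fun j => by positivity
  have hsK : ∀ j, 2 * s j * K j ≤ 1 / 50 * (1 / 8 : ℝ) ^ j := by
    intro j
    have h1 : (0 : ℝ) ≤ K j := (K j).2
    have h2 : 2 * s j * K j = 1 / 50 * (1 / 8 : ℝ) ^ j * (K j / (K j + 1)) := by
      simp only [hs']
      field_simp
      ring
    rw [h2]
    refine mul_le_of_le_one_right (by have := pos j; positivity) ?_
    rw [div_le_one (by positivity)]
    linarith
  set p : ℕ → Y := fun j => ((1 / 8 : ℝ) ^ j) • e0 with hp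
  set φ : ∀ j, EuclideanSpace ℝ (Fin (m j)) → Y := fun j x => p j + s j • A j x with hφ
  have hφs : ∀ j x y, dist (φ j x) (φ j y) = s j * ‖A j (x - y)‖ := by
    intro j x y
    have : φ j x - φ j y = s j • (A j (x - y)) := by
      simp only [hφ]
      rw [add_sub_add_left_eq_sub, ← smul_sub, map_sub]
    rw [dist_eq_norm, this, norm_smul, Real.norm_of_nonneg (hs j).le]
  have hφ1 : ∀ j x y, s j * dist x y ≤ dist (φ j x) (φ j y) := by
    intro j x y
    rw [hφs, dist_eq_norm]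
    exact mul_le_mul_of_nonneg_left (hA j (x - y)).1 (hs j).le
  have hA2 : ∀ j x, ‖A j x‖ ≤ 2 * ‖x‖ := by
    intro j x
    have h1 := (hA j x).2
    linarith
  have hφ2 : ∀ j x y, dist (φ j x) (φ j y) ≤ 2 * s j * dist x y := by
    intro j x y
    rw [hφs, dist_eq_norm]
    have h1 := mul_le_mul_of_nonneg_left (hA2 j (x - y)) (hs j).le
    linarith
  have hφp : ∀ j x, dist (φ j x) (p j) ≤ 2 * s j * ‖x‖ := by
    intro j x
    have h1 : p j = φ j 0 := by simp [hφ]
    conv_lhs => rw [h1]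
    have h2 := hφ2 j x 0
    rwa [dist_zero_right] at h2
  have hpd : ∀ i j, dist (p i) (p j) = |(1 / 8 : ℝ) ^ i - (1 / 8) ^ j| := by
    intro i j
    rw [dist_eq_norm]
    simp only [hp]
    rw [← sub_smul, norm_smul, he0n, mul_one, Real.norm_eq_abs]
  have hP : ∀ j, ∀ x ∈ φ j '' (L j '' Icc (0 : ℝ) 1), dist x (p j) ≤ 1 / 50 * (1 / 8 : ℝ) ^ j := by
    rintro j _ ⟨_, ⟨t, _, rfl⟩, rfl⟩
    refine (hφp j _).trans (le_trans ?_ (hsK j))
    exact mul_le_mul_of_nonneg_left ((hL j).norm_le t) (by have := hs j; positivity)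
  have hD : DoublingWith D257.lam0 (⋃ j, φ j '' (L j '' Icc (0 : ℝ) 1)) :=
    glue_doubling_shrink _ (fun j => φ j '' (L j '' Icc (0 : ℝ) 1)) p hP hpd
      (fun j => D257.doubling_image ((hdoub j).mono (by
        have : 0 < 69 * covC := by norm_num [covC]
        exact Nat.le_mul_of_pos_right _ this)) (φ j) (s j) (hs j) (hφ1 j) (hφ2 j))
  -- the base function and the time dependent loops
  obtain ⟨b, hb1, hb2⟩ := exists_base
  set Λ : ℕ → ℝ → Y := fun j t => s j • A j (L j (8 ^ j * t - 2)) with hΛ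
  have h8 : ∀ j : ℕ, (8 : ℝ) ^ j * (1 / 8 : ℝ) ^ j = 1 := by
    intro j
    rw [← mul_pow]
    norm_num
  have h8p : ∀ j : ℕ, (0 : ℝ) < 8 ^ j := fun j => by positivity
  have hΛ0 : ∀ j t, t ∉ Icc (2 * (1 / 8 : ℝ) ^ j) (3 * (1 / 8 : ℝ) ^ j) → Λ j t = 0 := by
    intro j t ht
    have h1 : (8 : ℝ) ^ j * t - 2 ∉ Ioo (0 : ℝ) 1 := by
      intro h
      apply ht
      constructor
      · have h2 : (8 : ℝ) ^ j * (2 * (1 / 8 : ℝ) ^ j) ≤ 8 ^ j * t := by
          have := h8 j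
          nlinarith [h.1]
        exact le_of_mul_le_mul_left h2 (h8p j)
      · have h2 : (8 : ℝ) ^ j * t ≤ (8 : ℝ) ^ j * (3 * (1 / 8 : ℝ) ^ j) := by
          have := h8 j
          nlinarith [h.2]
        exact le_of_mul_le_mul_left h2 (h8p j)
    simp only [hΛ, (hL j).2 _ h1, map_zero, smul_zero]
  have hΛlip : ∀ j x y, ‖Λ j x - Λ j y‖ ≤ |x - y| := by
    intro j x y
    have h1 : Λ j x - Λ j y = s j • A j (L j (8 ^ j * x - 2) - L j (8 ^ j * y - 2)) := by
      simp only [hΛ]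
      rw [← smul_sub, map_sub]
    rw [h1, norm_smul, Real.norm_of_nonneg (hs j).le]
    have h2 := hA2 j (L j (8 ^ j * x - 2) - L j (8 ^ j * y - 2))
    have h3 : ‖L j (8 ^ j * x - 2) - L j (8 ^ j * y - 2)‖ ≤ K j * (8 ^ j * |x - y|) := by
      have h4 := (hL j).1.dist_le_mul (8 ^ j * x - 2) (8 ^ j * y - 2)
      rw [dist_eq_norm, Real.dist_eq] at h4
      have h5 : |(8 : ℝ) ^ j * x - 2 - (8 ^ j * y - 2)| = 8 ^ j * |x - y| := by
        have : (8 : ℝ) ^ j * x - 2 - (8 ^ j * y - 2) = 8 ^ j * (x - y) := by ring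
        rw [this, abs_mul, abs_of_pos (h8p j)]
      rwa [h5] at h4
    calc s j * ‖A j (L j (8 ^ j * x - 2) - L j (8 ^ j * y - 2))‖
        ≤ s j * (2 * (K j * (8 ^ j * |x - y|))) :=
          mul_le_mul_of_nonneg_left (h2.trans (by linarith)) (hs j).le
      _ = (2 * s j * K j) * 8 ^ j * |x - y| := by ring
      _ ≤ (1 / 50 * (1 / 8 : ℝ) ^ j) * 8 ^ j * |x - y| := by
          have h6 := hsK j
          have h7 := h8p j
          gcongr
      _ = 1 / 50 * ((8 : ℝ) ^ j * (1 / 8 : ℝ) ^ j) * |x - y| := by ring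
      _ ≤ |x - y| := by
          rw [h8 j]
          linarith [abs_nonneg (x - y)]
  set N : ℝ → ℕ := fun t =>
    if h : ∃ j, t ∈ Icc (2 * (1 / 8 : ℝ) ^ j) (3 * (1 / 8 : ℝ) ^ j) then h.choose else 0 with hN
  have hdisj : ∀ i j t, t ∈ Icc (2 * (1 / 8 : ℝ) ^ i) (3 * (1 / 8 : ℝ) ^ i) →
      t ∈ Icc (2 * (1 / 8 : ℝ) ^ j) (3 * (1 / 8 : ℝ) ^ j) → i = j := by
    intro i j t hi hj
    rcases lt_trichotomy i j with h | h | h
    · have := pw i j h
      have := pos i
      linarith [hi.1, hj.2]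
    · exact h
    · have := pw j i h
      have := pos j
      linarith [hi.2, hj.1]
  have hNI : ∀ j, ∀ t ∈ Icc (2 * (1 / 8 : ℝ) ^ j) (3 * (1 / 8 : ℝ) ^ j), N t = j := by
    intro j t ht
    have h : ∃ j, t ∈ Icc (2 * (1 / 8 : ℝ) ^ j) (3 * (1 / 8 : ℝ) ^ j) := ⟨j, ht⟩
    simp only [hN, dif_pos h]
    exact hdisj _ _ t h.choose_spec ht
  have hN0 : ∀ t, ∀ j, j ≠ N t → Λ j t = 0 := by
    intro t j hj
    refine hΛ0 j t fun h => hj ?_
    exact (hNI j t h).symm
  set G : ℝ → Y := fun t => b t • e0 + Λ (N t) t with hG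
  have hGt : ∀ t, G t = b t • e0 + Λ (N t) t := fun t => rfl
  have hGlip : ∀ x y, ‖G x - G y‖ ≤ 3 * |x - y| := by
    intro x y
    have h1 : G x - G y = (b x - b y) • e0 + (Λ (N x) x - Λ (N y) y) := by
      simp only [hG, sub_smul]
      abel
    have h2 : ‖(b x - b y) • e0‖ ≤ |x - y| := by
      rw [norm_smul, he0n, mul_one]
      have := hb1.dist_le_mul x y
      rwa [NNReal.coe_one, one_mul, Real.dist_eq, Real.dist_eq] at this
    have h3 : ‖Λ (N x) x - Λ (N y) y‖ ≤ 2 * |x - y| := by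
      by_cases hxy : N x = N y
      · rw [hxy]
        have := hΛlip (N y) x y
        linarith [abs_nonneg (x - y)]
      · have h4 : Λ (N x) x - Λ (N y) y =
            (Λ (N x) x - Λ (N x) y) + (Λ (N y) x - Λ (N y) y) := by
          rw [hN0 y (N x) hxy, hN0 x (N y) (Ne.symm hxy)]
          abel
        rw [h4]
        refine (norm_add_le _ _).trans ?_
        linarith [hΛlip (N x) x y, hΛlip (N y) x y]
    rw [h1]
    refine (norm_add_le _ _).trans ?_
    linarith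
  -- the image
  set S : Set ℝ := {u | ∃ t ∈ Icc (0 : ℝ) 3, Λ (N t) t = 0 ∧ u = b t} with hS
  have himg : (fun t => G (3 * t)) '' Icc (0 : ℝ) 1 =
      ((fun u : ℝ => u • e0) '' S) ∪ ⋃ j, φ j '' (L j '' Icc (0 : ℝ) 1) := by
    ext x
    constructor
    · rintro ⟨t', ht', rfl⟩
      set t := 3 * t' with ht
      have ht3 : t ∈ Icc (0 : ℝ) 3 := ⟨by linarith [ht'.1], by linarith [ht'.2]⟩
      by_cases h0 : Λ (N t) t = 0
      · left
        refine ⟨b t, ⟨t, ht3, h0, rfl⟩, ?_⟩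
        change b t • e0 = G t
        rw [hGt, h0, add_zero]
      · right
        have h1 : t ∈ Icc (2 * (1 / 8 : ℝ) ^ (N t)) (3 * (1 / 8 : ℝ) ^ (N t)) := by
          by_contra h
          exact h0 (hΛ0 _ _ h)
        refine mem_iUnion.2 ⟨N t, _, ⟨8 ^ (N t) * t - 2, ⟨?_, ?_⟩, rfl⟩, ?_⟩
        · have h2 := mul_le_mul_of_nonneg_left h1.1 (h8p (N t)).le
          have := h8 (N t)
          nlinarith
        · have h2 := mul_le_mul_of_nonneg_left h1.2 (h8p (N t)).le
          have := h8 (N t)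
          nlinarith
        · change p (N t) + Λ (N t) t = G t
          rw [hGt, hb2 _ _ h1]
    · rintro (⟨_, ⟨t, ht, h0, rfl⟩, rfl⟩ | hx)
      · refine ⟨t / 3, ⟨by linarith [ht.1], by linarith [ht.2]⟩, ?_⟩
        have : 3 * (t / 3) = t := by ring
        simp only [this, hG, h0, add_zero]
      · obtain ⟨j, _, ⟨u, hu, rfl⟩, rfl⟩ := mem_iUnion.1 hx
        set t : ℝ := (1 / 8 : ℝ) ^ j * (u + 2) with ht
        have hpj := pos j
        have hpj1 : (1 / 8 : ℝ) ^ j ≤ 1 := pow_le_one₀ (by norm_num) (by norm_num)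
        have htI : t ∈ Icc (2 * (1 / 8 : ℝ) ^ j) (3 * (1 / 8 : ℝ) ^ j) := by
          constructor
          · nlinarith [hu.1]
          · nlinarith [hu.2]
        refine ⟨t / 3, ⟨by linarith [htI.1], by linarith [htI.2]⟩, ?_⟩
        have h3 : 3 * (t / 3) = t := by ring
        have h4 : (8 : ℝ) ^ j * t - 2 = u := by
          rw [ht, ← mul_assoc, h8 j]
          ring
        change G (3 * (t / 3)) = p j + s j • A j (L j u)
        rw [h3, hGt, hNI j t htI, hb2 j t htI]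
        change p j + s j • A j (L j (8 ^ j * t - 2)) = _
        rw [h4]
  have hdist : LipschitzWith 9 (fun t => G (3 * t)) := by
    refine LipschitzWith.of_dist_le_mul fun x y => ?_
    rw [dist_eq_norm, Real.dist_eq]
    refine (hGlip _ _).trans (le_of_eq ?_)
    rw [← mul_sub, abs_mul]
    norm_num
    ring
  refine ⟨fun t => G (3 * t), hdist, ?_, ?_⟩
  · rw [himg]
    exact doubling_union (doubling_line e0 he0n S) hD
  · intro j k D hkj hDj
    refine D257.not_embeds hkj hDj (L j '' Icc (0 : ℝ) 1) (φ j) (hs j) (hφ1 j) (hφ2 j)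
      (hemb j) _ ?_
    rintro _ ⟨u, hu, rfl⟩
    set t : ℝ := (1 / 8 : ℝ) ^ j * (u + 2) with ht
    have hpj := pos j
    have htI : t ∈ Icc (2 * (1 / 8 : ℝ) ^ j) (3 * (1 / 8 : ℝ) ^ j) := by
      constructor
      · nlinarith [hu.1]
      · nlinarith [hu.2]
    refine ⟨t / 3, ⟨by linarith [htI.1], by linarith [htI.2]⟩, ?_⟩
    have h3 : 3 * (t / 3) = t := by ring
    have h4 : (8 : ℝ) ^ j * t - 2 = u := by
      rw [ht, ← mul_assoc, h8 j]
      ring
    change G (3 * (t / 3)) = p j + s j • A j (L j u)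
    rw [h3, hGt, hNI j t htI, hb2 j t htI]
    change p j + s j • A j (L j (8 ^ j * t - 2)) = _
    rw [h4]

end Vale.Agent.P208.H560
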