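import Mathlib.Analysis.Normed.Lp.lpSpace

/-! # P208 (H560): the definitions of the statement -/

namespace Vale.Agent.P208.H560

/-- Real separable Hilbert space `ℓ²`. -/
abbrev Ell2 : Type := lp (fun _ : ℕ => ℝ) 2

/-- The metric space `X` is doubling with constant at most `lam`: every (closed) ball is covered by
at most `lam` (open) balls of half its radius, with centres in `X`. -/
def IsDoubling (lam : ℕ) (X : Type) [MetricSpace X] : Prop :=
  ∀ (x : X) (r : ℝ), 0 < r → ∃ T : Finset X, T.card ≤ lam ∧
    Metric.closedBall x r ⊆ ⋃ z ∈ T, Metric.ball z (r / 2)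

end Vale.Agent.P208.H560
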