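import Vale.Agent.P208.H560.Loop

/-!
# P208 (H560): bad doubling Lipschitz loops in Euclidean spaces

The time layer (`Movie.exists_realized`) with the hypothesis restricted to doubling Lipschitz loops.
-/

namespace Vale.Agent.P208.H560

open Finset Vale.Agent.P208.Movie
open scoped NNReal

/-- transport of the hypothesis to finite-dimensional inner product spaces -/
theorem embeds_of_finiteDimensional {W : Type*} [NormedAddCommGroup W] [InnerProductSpace ℝ W]
    [FiniteDimensional ℝ W] (lam k : ℕ) (c : ℝ)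
    (h : ∀ (m : ℕ) (X : Set (EuclideanSpace ℝ (Fin m))), LoopSet X →
      DoublingWith lam X → EmbedsWith c X k) (X : Set W) (hb : LoopSet X)
    (hd : DoublingWith lam X) : EmbedsWith c X k := by
  set φ := (stdOrthonormalBasis ℝ W).repr with hφ
  obtain ⟨f, hf⟩ := h _ (φ '' X) (hb.image φ 1 φ.lipschitz (map_zero φ))
    (hd.image φ 1 one_pos (fun x y => by rw [one_mul]; exact φ.dist_map x y))
  refine ⟨fun x => f (φ x), fun x hx y hy => ?_⟩
  have := hf (φ x) ⟨x, hx, rfl⟩ (φ y) ⟨y, hy, rfl⟩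
  rwa [φ.dist_map] at this

/-- **Theorem A, for doubling Lipschitz loops.** -/
theorem exists_realized {E : Type} [NormedAddCommGroup E] [InnerProductSpace ℝ E]
    [FiniteDimensional ℝ E] {P : Type} [Finite P] (Mv : Movie E P) (k : ℕ) (m : ℝ)
    (hemb : ∀ (d : ℕ) (X : Set (EuclideanSpace ℝ (Fin d))), LoopSet X →
      DoublingWith (69 * covC) X → EmbedsWith m X k) :
    Mv.Realized (EuclideanSpace ℝ (Fin k)) m := by
  classical
  have hP : Nonempty P := ⟨Mv.p0⟩
  refine Mv.realized_of_approx _ m ((range Mv.L).sup Mv.ht)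
    (fun κ hκ => le_sup (f := Mv.ht) (mem_range.2 hκ)) fun Ω hΩ => ?_
  set K := (range Mv.L).sup Mv.ht with hK
  obtain ⟨N, hN⟩ := Mv.exists_isPlay (Nat.succ_le_of_lt hΩ)
  obtain ⟨hF, hplay⟩ := hN (max N 1) (le_max_left _ _)
  have hn'1 : 1 ≤ max N 1 := le_max_right _ _
  generalize max N 1 = n' at hF hplay hn'1
  set n := 3 * n' with hn
  have hn3 : 3 ≤ n := by omega
  have hn0 : 0 < n := by omega
  have hnR : (0 : ℝ) < n := by exact_mod_cast hn0
  have hΩR : (0 : ℝ) < Ω := by exact_mod_cast hΩ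
  set eps : ℝ := 1 / (7200 * n) with heps
  have heps0 : 0 < eps := by positivity
  have hepsn : eps * n = 1 / 7200 := by rw [heps]; field_simp
  have hn1 : (1 : ℝ) ≤ n := by exact_mod_cast hn0
  have hepsle : eps ≤ 1 / 7200 := by
    have := mul_le_mul_of_nonneg_left hn1 heps0.le
    linarith only [hepsn, this]
  set θ : ℝ := 1 / (Ω : ℝ) ^ (K + 1) with hθ
  have hθ0 : 0 < θ := by positivity
  have hc0 : 0 < (n : ℝ) * eps ^ 2 * θ := by positivity
  obtain ⟨J, hJ⟩ := exists_nat_gt (1 / ((n : ℝ) * eps ^ 2 * θ))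
  rw [div_lt_iff₀ hc0] at hJ
  have hB := isBlocks_b (E := E) J
  have hdoub := doubling_xpt (P := P) (H := Mv.H Ω n') hB hplay (by omega) heps0
    (by rw [hepsn]; norm_num)
    (by
      have : eps * (6 * (n : ℝ)) = 6 * (eps * n) := by ring
      rw [this, hepsn]
      norm_num)
    (by linarith only [hepsle]) le_rfl
  obtain ⟨f, hf⟩ := embeds_of_finiteDimensional (69 * covC) k m hemb _
    (loopSet_xpt hB heps0 hn0 (by positivity) hplay) hdoub
  obtain ⟨g, -, -, hg, hgE⟩ := exists_near_extremal n J eps (Mv.H Ω n') (bE0 J E) (bIota J)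
    hn0 heps0 hplay.per hplay.zero hplay.affine (norm_bE0 J).le
    (fun j hj x => norm_bIota J hj x) θ hJ m f
    (by
      intro t ht t' ht' w w'
      have := hf _ ⟨t, ht, w, rfl⟩ _ ⟨t', ht', w', rfl⟩
      simpa only [dist_eq_norm] using this)
  refine ⟨n, Mv.start Ω n', fun p i => Mv.H Ω n' p ((i : ℝ) / n), g, ?_, ?_, ?_, ?_, ?_, ?_⟩
  · intro κ _
    exact Mv.start_succ κ
  · have := hF.2.2
    omega
  · intro p i hi h
    exact H_value_zero hF p hi h
  · intro p κ hκ i hi
    exact H_value hF p hκ hi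
  · intro p p' i hi
    exact hg p p' i hi
  · intro p
    exact hgE p

/-- **Doubling Lipschitz loops in Euclidean spaces without embedding**, with an absolute doubling
constant. -/
theorem exists_bad_loop (k : ℕ) (c : ℝ) (hc : 0 < c) :
    ∃ (d : ℕ) (X : Set (EuclideanSpace ℝ (Fin d))), LoopSet X ∧
      DoublingWith (69 * covC) X ∧ ¬ EmbedsWith c X k := by
  obtain ⟨E, i1, i2, i3, P, i4, Mv, hMv⟩ :=
    badMovie k (m := min c 1) (lt_min hc one_pos) (min_le_right _ _)
  by_contra hcon
  push Not at hcon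
  refine hMv (exists_realized Mv k (min c 1) fun d X h1 h2 => ?_)
  exact (hcon d X h1 h2).mono (min_le_left _ _)

end Vale.Agent.P208.H560
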