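import Vale.Agent.P208.H560.Arc

/-!
# P208 (H560): the arc
-/

namespace Vale.Agent.P208.H560

open scoped NNReal
open Set Filter Topology

theorem exists_pos_lower {α : Type*} (S : Finset α) (g : α → ℝ) (hg : ∀ a ∈ S, 0 < g a) :
    ∃ δ : ℝ, 0 < δ ∧ ∀ a ∈ S, δ ≤ g a := by
  classical
  induction S using Finset.induction with
  | empty => exact ⟨1, one_pos, by simp⟩
  | insert b S hb ih =>
    obtain ⟨δ, h1, h2⟩ := ih fun a ha => hg a (Finset.mem_insert_of_mem ha)
    refine ⟨min δ (g b), lt_min h1 (hg b (Finset.mem_insert_self _ _)), fun a ha => ?_⟩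
    rcases Finset.mem_insert.1 ha with rfl | ha
    · exact min_le_right _ _
    · exact (min_le_left _ _).trans (h2 a ha)

/-- finite sets have a positive minimal distance -/
theorem exists_min_dist {E : Type*} [MetricSpace E] {Z : Set E} (hZ : Z.Finite) :
    ∃ δ : ℝ, 0 < δ ∧ ∀ x ∈ Z, ∀ y ∈ Z, x ≠ y → δ ≤ dist x y := by
  classical
  obtain ⟨δ, h1, h2⟩ := exists_pos_lower hZ.toFinset.offDiag (fun q => dist q.1 q.2) (by
    intro q hq
    exact dist_pos.2 (Finset.mem_offDiag.1 hq).2.2)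
  refine ⟨δ, h1, fun x hx y hy hxy => h2 (x, y) ?_⟩
  rw [Finset.mem_offDiag]
  exact ⟨hZ.mem_toFinset.2 hx, hZ.mem_toFinset.2 hy, hxy⟩

theorem embeds_anti {E : Type} [MetricSpace E] {X Z : Set E} {k : ℕ} {D : ℝ}
    (h : Embeds X k D) (hZ : Z ⊆ X) : Embeds Z k D := by
  obtain ⟨f, a, ha, hf⟩ := h
  exact ⟨f, a, ha, fun x hx y hy => hf x (hZ hx) y (hZ hy)⟩

theorem embeds_mono {E : Type} [MetricSpace E] {X : Set E} {k : ℕ} {D D' : ℝ}
    (h : Embeds X k D) (hD : D ≤ D') : Embeds X k D' := by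
  obtain ⟨f, a, ha, hf⟩ := h
  refine ⟨f, a, ha, fun x hx y hy => ⟨(hf x hx y hy).1, (hf x hx y hy).2.trans ?_⟩⟩
  have := dist_nonneg (x := x) (y := y)
  gcongr

/-- the absolute doubling constant of the arc -/
def lamC : ℕ := 5 * (lamB * lamB * lamB)

/-- **Every infinite-dimensional normed space contains a doubling rectifiable arc without
bi-Lipschitz embedding into any `ℝ^k`**, all of whose subarcs away from one endpoint are
bi-Lipschitz images of intervals. -/
theorem exists_arc {Y : Type} [NormedAddCommGroup Y] [NormedSpace ℝ Y]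
    (hY : ¬ FiniteDimensional ℝ Y) : ∃ γ : ℝ → Y, LipschitzWith 10 γ ∧
      InjOn γ (Icc (0 : ℝ) 1) ∧
      (∀ δ : ℝ, 0 < δ → ∃ c : ℝ, 0 < c ∧ ∀ s ∈ Icc δ 1, ∀ t ∈ Icc δ 1,
        c * |s - t| ≤ dist (γ s) (γ t)) ∧
      DoublingWith (lamC * lamC) (γ '' Icc (0 : ℝ) 1) ∧
      ∀ (k : ℕ) (D : ℝ), ¬ Embeds (γ '' Icc (0 : ℝ) 1) k D := by
  classical
  -- a unit vector and a norming functional
  have hne : ∃ f : Y, ‖f‖ = 1 := by
    obtain ⟨A, hA⟩ := D257.dvoretzky hY 1 one_pos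
    set v : EuclideanSpace ℝ (Fin 1) := EuclideanSpace.single 0 1 with hv
    have h1 : ‖v‖ = 1 := by simp [hv]
    have h2 : 0 < ‖A v‖ := by
      have := (hA v).1
      linarith
    refine ⟨‖A v‖⁻¹ • A v, ?_⟩
    rw [norm_smul, norm_inv, norm_norm, inv_mul_cancel₀ h2.ne']
  obtain ⟨f, hf⟩ := hne
  obtain ⟨l, hl1, hl2⟩ := exists_dual_vector ℝ f (by
    intro h
    rw [hf] at h
    exact one_ne_zero h)
  have hlf : l f = 1 := by
    rw [hl2, hf]
    rfl
  set V : Submodule ℝ Y := LinearMap.ker (l : Y →ₗ[ℝ] ℝ) with hV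
  have hVfin : ¬ FiniteDimensional ℝ V := by
    intro hfin
    apply hY
    have h1 : Function.Surjective
        (V.subtype.coprod ((LinearMap.id : ℝ →ₗ[ℝ] ℝ).smulRight f)) := by
      intro y
      refine ⟨(⟨y - l y • f, ?_⟩, l y), ?_⟩
      · rw [hV, LinearMap.mem_ker]
        simp [hlf]
      · simp
    exact Module.Finite.of_surjective _ h1
  obtain ⟨γ0, hg1, hg2, hg3⟩ := exists_curve hVfin
  set ι : V → ℝ → Y := fun x t => (x : Y) + t • f with hι
  have hιd : ∀ (x x' : V) (t t' : ℝ),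
      dist (ι x t) (ι x' t') = ‖((x - x' : V) : Y) + (t - t') • f‖ := by
    intro x x' t t'
    rw [dist_eq_norm]
    congr 1
    simp only [hι, AddSubgroupClass.coe_sub, sub_smul]
    abel
  have hι1 : ∀ (x x' : V) (t t' : ℝ), dist (ι x t) (ι x' t') ≤ dist x x' + |t - t'| := by
    intro x x' t t'
    rw [hιd]
    refine (norm_add_le _ _).trans ?_
    rw [norm_smul, hf, mul_one, Real.norm_eq_abs, dist_eq_norm]
    exact le_of_eq rfl
  have hι2 : ∀ (x x' : V) (t t' : ℝ), |t - t'| ≤ dist (ι x t) (ι x' t') := by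
    intro x x' t t'
    rw [hιd]
    have h1 := l.le_opNorm (((x - x' : V) : Y) + (t - t') • f)
    have h2 : l (((x - x' : V) : Y) + (t - t') • f) = t - t' := by
      have h3 : l ((x - x' : V) : Y) = 0 := (x - x').2
      rw [map_add, h3, map_smul, hlf]
      simp
    rw [h2, hl1, one_mul, Real.norm_eq_abs] at h1
    exact h1
  have hι3 : ∀ (x x' : V) (t t' : ℝ), dist x x' ≤ 2 * dist (ι x t) (ι x' t') := by
    intro x x' t t'
    have h1 := hι2 x x' t t'
    rw [hιd] at h1 ⊢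
    have h2 : dist x x' = ‖((x - x' : V) : Y)‖ := by rw [dist_eq_norm]; rfl
    have h3 : ((x - x' : V) : Y) = (((x - x' : V) : Y) + (t - t') • f) - (t - t') • f := by abel
    have h4 := norm_sub_le (((x - x' : V) : Y) + (t - t') • f) ((t - t') • f)
    rw [← h3, norm_smul, hf, mul_one, Real.norm_eq_abs] at h4
    rw [h2]
    linarith
  -- finite witnesses
  have hw : ∀ j k : ℕ, ∃ Z : Set V, Z ⊆ γ0 '' Icc (0 : ℝ) ((1 / 8) ^ j) ∧ Z.Finite ∧
      (k ≤ j → ¬ Embeds Z k ((j : ℝ) + 1)) := by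
    intro j k
    by_cases hk : k ≤ j
    · obtain ⟨Z, h1, h2, h3⟩ := exists_finite_witness _ k ((j : ℝ) + 1) (by positivity)
        (hg3 j k _ hk le_rfl)
      exact ⟨Z, h1, h2, fun _ => h3⟩
    · exact ⟨∅, empty_subset _, finite_empty, fun h => absurd h hk⟩
  choose Z0 hZ1 hZ2 hZ3 using hw
  set Z : ℕ → Set V := fun j => ⋃ k ∈ Finset.range (j + 1), Z0 j k with hZ
  have hZsub : ∀ j, Z j ⊆ γ0 '' Icc (0 : ℝ) ((1 / 8) ^ j) := fun j =>
    iUnion₂_subset fun k _ => hZ1 j k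
  have hZfin : ∀ j, (Z j).Finite := fun j =>
    Set.Finite.biUnion (Finset.finite_toSet _) fun k _ => hZ2 j k
  have hZemb : ∀ j k, k ≤ j → ¬ Embeds (Z j) k ((j : ℝ) + 1) := by
    intro j k hk h
    refine hZ3 j k hk (embeds_anti h ?_)
    exact subset_biUnion_of_mem (u := fun k => Z0 j k)
      (show k ∈ (Finset.range (j + 1) : Finset ℕ) from Finset.mem_range.2 (by omega))
  choose δ hδ0 hδ using fun j => exists_min_dist (hZfin j)
  have hτ : ∀ (j : ℕ) (z : V), ∃ t : ℝ, z ∈ Z j → t ∈ Icc (0 : ℝ) ((1 / 8) ^ j) ∧ γ0 t = z := by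
    intro j z
    by_cases hz : z ∈ Z j
    · obtain ⟨t, ht, h⟩ := hZsub j hz
      exact ⟨t, fun _ => ⟨ht, h⟩⟩
    · exact ⟨0, fun h => absurd h hz⟩
  choose τ hτ using hτ
  obtain ⟨h, hmono, hh1, hh2, hh3⟩ := exists_height δ hδ0
  set F : ℝ → Y := fun t => ι (γ0 t) (h t) with hF
  have hlow : ∀ s t, |h s - h t| ≤ dist (F s) (F t) := fun s t => hι2 _ _ _ _
  refine ⟨F, ?_, ?_, ?_, ?_, ?_⟩
  · refine LipschitzWith.of_dist_le_mul fun s t => ?_
    have h1 := hι1 (γ0 s) (γ0 t) (h s) (h t)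
    have h2 := hg1.dist_le_mul s t
    have h3 := hh1 s t
    rw [Real.dist_eq] at h2 ⊢
    have h4 : ((9 : ℝ≥0) : ℝ) = 9 := rfl
    have h5 : ((10 : ℝ≥0) : ℝ) = 10 := rfl
    rw [h4] at h2
    rw [h5]
    change dist (ι (γ0 s) (h s)) (ι (γ0 t) (h t)) ≤ _
    linarith
  · have hlt : ∀ s ∈ Icc (0 : ℝ) 1, ∀ t ∈ Icc (0 : ℝ) 1, s < t → F s ≠ F t := by
      intro s hs t ht hst hFst
      have h0 : |h s - h t| ≤ 0 := by
        have := hlow s t
        rwa [hFst, dist_self] at this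
      have h1 : h s = h t := by
        have := abs_nonpos_iff.1 h0
        linarith
      obtain ⟨c, hc, hc2⟩ := hh3 (t / 2) (by linarith [hs.1])
      have h2 := hc2 ((s + t) / 2) t (by linarith [hs.1]) (by linarith [hs.1])
      have h3 := hmono s ((s + t) / 2) (by linarith)
      have h4 := hmono ((s + t) / 2) t (by linarith)
      have h5 : h ((s + t) / 2) = h t := by linarith
      rw [h5, sub_self, abs_zero] at h2
      have h6 : 0 < |(s + t) / 2 - t| := by
        rw [abs_pos]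
        intro h7
        linarith
      have h7 : 0 < c * |(s + t) / 2 - t| := mul_pos hc h6
      linarith
    intro s hs t ht hst
    rcases lt_trichotomy s t with h1 | h1 | h1
    · exact absurd hst (hlt s hs t ht h1)
    · exact h1
    · exact absurd hst.symm (hlt t ht s hs h1)
  · intro ε hε
    obtain ⟨c, hc, hc2⟩ := hh3 ε hε
    exact ⟨c, hc, fun s hs t ht => (hc2 s t hs.1 ht.1).trans (hlow s t)⟩
  · have h1 : DoublingWith lamC {y | ∃ x ∈ γ0 '' Icc (0 : ℝ) 1, ∃ t, y = ι x t} :=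
      doubling_cylinder ι hι1 hι2 hι3 hg2
    refine h1.subset ?_
    rintro _ ⟨t, ht, rfl⟩
    exact ⟨γ0 t, ⟨t, ht, rfl⟩, h t, rfl⟩
  · rintro k D ⟨g, a, ha, hg⟩
    obtain ⟨j, hj⟩ := exists_nat_ge (max (k : ℝ) (4 * |D|))
    have hkj : k ≤ j := by exact_mod_cast (le_max_left _ _).trans hj
    have hDj : 4 * D ≤ (j : ℝ) + 1 := by
      linarith only [le_abs_self D, (le_max_right _ _).trans hj]
    refine hZemb j k hkj (embeds_mono (D := 4 * D) ?_ hDj)
    refine ⟨fun z => g (F (τ j z)), a / 2, by positivity, fun z hz z' hz' => ?_⟩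
    obtain ⟨h1, h2⟩ := hτ j z hz
    obtain ⟨h3, h4⟩ := hτ j z' hz'
    have h8 : ((1 : ℝ) / 8) ^ j ≤ 1 := pow_le_one₀ (by norm_num) (by norm_num)
    have hm1 : F (τ j z) ∈ F '' Icc (0 : ℝ) 1 := ⟨_, ⟨h1.1, h1.2.trans h8⟩, rfl⟩
    have hm2 : F (τ j z') ∈ F '' Icc (0 : ℝ) 1 := ⟨_, ⟨h3.1, h3.2.trans h8⟩, rfl⟩
    obtain ⟨h5, h6⟩ := hg _ hm1 _ hm2
    have hd0 : dist z z' = dist (γ0 (τ j z)) (γ0 (τ j z')) := by rw [h2, h4]
    have hd1 : dist z z' ≤ 2 * dist (F (τ j z)) (F (τ j z')) := by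
      rw [hd0]
      exact hι3 (γ0 (τ j z)) (γ0 (τ j z')) (h (τ j z)) (h (τ j z'))
    have hd2 : dist (F (τ j z)) (F (τ j z')) ≤ 2 * dist z z' := by
      by_cases hzz : z = z'
      · rw [hzz, dist_self, dist_self, mul_zero]
      · have h9 : dist (F (τ j z)) (F (τ j z')) ≤
            dist (γ0 (τ j z)) (γ0 (τ j z')) + |h (τ j z) - h (τ j z')| :=
          hι1 (γ0 (τ j z)) (γ0 (τ j z')) (h (τ j z)) (h (τ j z'))
        rw [← hd0] at h9
        have h10 := hh2 j (τ j z) h1 (τ j z') h3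
        have h11 := hδ j z hz z' hz' hzz
        have h12 : |τ j z - τ j z'| ≤ 1 := by
          rw [abs_le]
          constructor <;> linarith [h1.1, h1.2, h3.1, h3.2]
        have h13 : δ j * |τ j z - τ j z'| ≤ δ j := mul_le_of_le_one_right (hδ0 j).le h12
        linarith
    constructor
    · calc a / 2 * dist z z' ≤ a / 2 * (2 * dist (F (τ j z)) (F (τ j z'))) := by gcongr
        _ = a * dist (F (τ j z)) (F (τ j z')) := by ring
        _ ≤ _ := h5
    · refine h6.trans ?_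
      have hDa : 0 ≤ D * a ∨ D * a < 0 := le_or_gt 0 (D * a)
      rcases hDa with hDa | hDa
      · calc D * a * dist (F (τ j z)) (F (τ j z')) ≤ D * a * (2 * dist z z') := by gcongr
          _ = 4 * D * (a / 2) * dist z z' := by ring
      · -- negative distortion: all distances vanish
        have h15 : dist (F (τ j z)) (F (τ j z')) = 0 := by
          have h16 : 0 ≤ dist (g (F (τ j z))) (g (F (τ j z'))) := dist_nonneg
          have h17 : 0 ≤ dist (F (τ j z)) (F (τ j z')) := dist_nonneg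
          nlinarith
        have h18 : dist z z' = 0 := le_antisymm (by linarith) dist_nonneg
        rw [h15, h18]
        simp

end Vale.Agent.P208.H560
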