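import Vale.Agent.P208.H257.Glue

/-!
# P208 (H560): the bad sets of the time layer are finite unions of Lipschitz loops
-/

namespace Vale.Agent.P208.H560

open scoped NNReal
open Set

/-- a Lipschitz loop based at `0`, extended by `0` outside of `(0, 1)` -/
def IsLoop {V : Type*} [NormedAddCommGroup V] (K : ℝ≥0) (γ : ℝ → V) : Prop :=
  LipschitzWith K γ ∧ ∀ t, t ∉ Ioo (0 : ℝ) 1 → γ t = 0

/-- the image of a Lipschitz loop based at `0` -/
def LoopSet {V : Type*} [NormedAddCommGroup V] (X : Set V) : Prop :=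
  ∃ (K : ℝ≥0) (γ : ℝ → V), IsLoop K γ ∧ X = γ '' Icc (0 : ℝ) 1

section Basic

variable {V : Type*} [NormedAddCommGroup V]

theorem IsLoop.norm_le {K : ℝ≥0} {γ : ℝ → V} (h : IsLoop K γ) (t : ℝ) : ‖γ t‖ ≤ K := by
  by_cases ht : t ∈ Ioo (0 : ℝ) 1
  · have h1 := h.1.dist_le_mul t 0
    have h0 : γ 0 = 0 := h.2 0 (fun h => lt_irrefl _ h.1)
    rw [h0, dist_zero_right, Real.dist_eq, sub_zero, abs_of_pos ht.1] at h1
    calc ‖γ t‖ ≤ K * t := h1
      _ ≤ K * 1 := mul_le_mul_of_nonneg_left ht.2.le K.2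
      _ = K := mul_one _
  · rw [h.2 t ht, norm_zero]; exact K.2

theorem LoopSet.zero_mem {X : Set V} (h : LoopSet X) : (0 : V) ∈ X := by
  obtain ⟨K, γ, h1, rfl⟩ := h
  exact ⟨0, ⟨le_rfl, zero_le_one⟩, h1.2 0 (fun h => lt_irrefl _ h.1)⟩

theorem LoopSet.isBounded {X : Set V} (h : LoopSet X) : Bornology.IsBounded X := by
  obtain ⟨K, γ, h1, rfl⟩ := h
  rw [isBounded_iff_forall_norm_le]
  exact ⟨K, by rintro _ ⟨t, _, rfl⟩; exact h1.norm_le t⟩

theorem loopSet_zero : LoopSet ({0} : Set V) := by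
  refine ⟨0, fun _ => 0, ⟨LipschitzWith.const _, fun _ _ => rfl⟩, ?_⟩
  ext x
  constructor
  · intro hx
    exact ⟨0, ⟨le_rfl, zero_le_one⟩, (mem_singleton_iff.1 hx).symm⟩
  · rintro ⟨t, _, rfl⟩
    exact mem_singleton _

theorem LoopSet.union {X Y : Set V} (hX : LoopSet X) (hY : LoopSet Y) : LoopSet (X ∪ Y) := by
  obtain ⟨K, γ, ⟨h1, h2⟩, rfl⟩ := hX
  obtain ⟨L, δ, ⟨h3, h4⟩, rfl⟩ := hY
  have hl : ∀ c : ℝ, LipschitzWith 2 (fun t : ℝ => 2 * t - c) := by
    intro c
    refine LipschitzWith.of_dist_le_mul fun x y => ?_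
    rw [Real.dist_eq, Real.dist_eq]
    have : 2 * x - c - (2 * y - c) = 2 * (x - y) := by ring
    rw [this, abs_mul]
    norm_num
  have hleft : ∀ t : ℝ, t ≤ 1 / 2 → δ (2 * t - 1) = 0 := fun t ht =>
    h4 _ (fun h => by have := h.1; linarith)
  have hright : ∀ t : ℝ, 1 / 2 ≤ t → γ (2 * t - 0) = 0 := fun t ht =>
    h2 _ (fun h => by have := h.2; linarith)
  refine ⟨K * 2 + L * 2, fun t => γ (2 * t - 0) + δ (2 * t - 1),
    ⟨(h1.comp (hl 0)).add (h3.comp (hl 1)), ?_⟩, ?_⟩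
  · intro t ht
    have ha : γ (2 * t - 0) = 0 := by
      refine h2 _ fun h => ht ⟨by have := h.1; linarith, by have := h.2; linarith⟩
    have hb : δ (2 * t - 1) = 0 := by
      refine h4 _ fun h => ht ⟨by have := h.1; linarith, by have := h.2; linarith⟩
    simp only [ha, hb, add_zero]
  · ext x
    constructor
    · rintro (⟨t, ht, rfl⟩ | ⟨t, ht, rfl⟩)
      · refine ⟨t / 2, ⟨by linarith [ht.1], by linarith [ht.2]⟩, ?_⟩
        have ha := hleft (t / 2) (by linarith [ht.2])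
        simp only [ha, add_zero]
        congr 1
        ring
      · refine ⟨(t + 1) / 2, ⟨by linarith [ht.1], by linarith [ht.2]⟩, ?_⟩
        have ha := hright ((t + 1) / 2) (by linarith [ht.1])
        simp only [ha, zero_add]
        congr 1
        ring
    · rintro ⟨t, ht, rfl⟩
      rcases le_total t (1 / 2) with h | h
      · left
        refine ⟨2 * t - 0, ⟨by linarith [ht.1], by linarith⟩, ?_⟩
        simp only [hleft t h, add_zero]
      · right
        refine ⟨2 * t - 1, ⟨by linarith, by linarith [ht.2]⟩, ?_⟩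
        simp only [hright t h, zero_add]

theorem LoopSet.biUnion {ι : Type*} (s : Finset ι) (X : ι → Set V) (h : ∀ i, LoopSet (X i)) :
    LoopSet ({0} ∪ ⋃ i ∈ s, X i) := by
  classical
  induction s using Finset.induction with
  | empty => simpa using loopSet_zero (V := V)
  | insert a s ha ih =>
    rw [Finset.set_biUnion_insert, union_left_comm]
    exact (h a).union ih

theorem LoopSet.iUnion {ι : Type*} [Finite ι] [Nonempty ι] (X : ι → Set V)
    (h : ∀ i, LoopSet (X i)) : LoopSet (⋃ i, X i) := by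
  classical
  have _ : Fintype ι := Fintype.ofFinite ι
  have h1 := LoopSet.biUnion Finset.univ X h
  have h2 : ({0} ∪ ⋃ i ∈ (Finset.univ : Finset ι), X i) = ⋃ i, X i := by
    simp only [Finset.mem_univ, iUnion_true]
    refine union_eq_self_of_subset_left ?_
    rw [singleton_subset_iff]
    exact mem_iUnion.2 ⟨Classical.arbitrary ι, (h _).zero_mem⟩
  rwa [h2] at h1

/-- a Lipschitz curve starting at the origin is a loop set -/
theorem loopSet_of_curve {K : ℝ≥0} {c : ℝ → V} (hc : LipschitzWith K c) (h0 : c 0 = 0) :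
    LoopSet (c '' Icc (0 : ℝ) 1) := by
  have h1 : LipschitzWith 2 (fun t : ℝ => max 0 (1 - |2 * t - 1|)) := by
    refine LipschitzWith.of_dist_le_mul fun x y => ?_
    rw [Real.dist_eq, Real.dist_eq]
    rw [max_comm 0, max_comm 0]
    refine (abs_max_sub_max_le_abs _ _ _).trans ?_
    have h2 : |(1 - |2 * x - 1|) - (1 - |2 * y - 1|)| ≤ |(2 * y - 1) - (2 * x - 1)| := by
      have h3 : (1 - |2 * x - 1|) - (1 - |2 * y - 1|) = |2 * y - 1| - |2 * x - 1| := by ring
      rw [h3]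
      exact abs_abs_sub_abs_le_abs_sub _ _
    have h4 : (2 * y - 1) - (2 * x - 1) = -(2 * (x - y)) := by ring
    rw [h4, abs_neg, abs_mul] at h2
    norm_num at h2 ⊢
    exact h2
  refine ⟨K * 2, fun t => c (max 0 (1 - |2 * t - 1|)), ⟨hc.comp h1, ?_⟩, ?_⟩
  · intro t ht
    have h2 : 1 ≤ |2 * t - 1| := by
      by_contra hlt
      push Not at hlt
      rw [abs_lt] at hlt
      exact ht ⟨by linarith [hlt.1], by linarith [hlt.2]⟩
    have h3 : max 0 (1 - |2 * t - 1|) = 0 := max_eq_left (by linarith)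
    simp only [h3, h0]
  · ext x
    constructor
    · rintro ⟨s, hs, rfl⟩
      refine ⟨s / 2, ⟨by linarith [hs.1], by linarith [hs.2]⟩, ?_⟩
      have h2 : |2 * (s / 2) - 1| = 1 - s := by
        rw [abs_of_nonpos (by linarith [hs.2])]; ring
      simp only [h2]
      congr 1
      rw [max_eq_right (by linarith [hs.1])]
      ring
    · rintro ⟨t, ht, rfl⟩
      refine ⟨max 0 (1 - |2 * t - 1|), ⟨le_max_left _ _, ?_⟩, rfl⟩
      exact max_le zero_le_one (by linarith [abs_nonneg (2 * t - 1)])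

/-- images under linear Lipschitz maps -/
theorem LoopSet.image {W : Type*} [NormedAddCommGroup W] {X : Set V} (h : LoopSet X) (φ : V → W)
    (C : ℝ≥0) (hφ : LipschitzWith C φ) (h0 : φ 0 = 0) : LoopSet (φ '' X) := by
  obtain ⟨K, γ, ⟨h1, h2⟩, rfl⟩ := h
  refine ⟨C * K, fun t => φ (γ t), ⟨hφ.comp h1, fun t ht => by simp only [h2 t ht, h0]⟩, ?_⟩
  rw [image_image]

end Basic

/-- a function which is Lipschitz on the cells of `(1/n) ℤ` is Lipschitz -/
theorem lip_of_cells {V : Type*} [NormedAddCommGroup V] (f : ℝ → V) (n : ℕ) (hn : 0 < n) (K : ℝ)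
    (h : ∀ i : ℤ, ∀ y ∈ Icc ((i : ℝ) / n) (((i : ℝ) + 1) / n),
      ∀ y' ∈ Icc ((i : ℝ) / n) (((i : ℝ) + 1) / n), ‖f y - f y'‖ ≤ K * |y - y'|) (x y : ℝ) :
    ‖f x - f y‖ ≤ K * |x - y| := by
  have hn' : (0 : ℝ) < n := by exact_mod_cast hn
  have key : ∀ m : ℕ, ∀ x y : ℝ, x ≤ y → (n : ℝ) * y ≤ (⌊(n : ℝ) * x⌋ : ℝ) + 1 + m →
      ‖f x - f y‖ ≤ K * (y - x) := by
    intro m
    induction m with
    | zero =>
      intro x y hxy hy
      have h1 := Int.floor_le ((n : ℝ) * x)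
      have h2 := Int.lt_floor_add_one ((n : ℝ) * x)
      have h3 : (n : ℝ) * x ≤ n * y := mul_le_mul_of_nonneg_left hxy hn'.le
      have h4 := h ⌊(n : ℝ) * x⌋ x ⟨by rw [div_le_iff₀ hn']; linarith,
        by rw [le_div_iff₀ hn']; linarith⟩ y ⟨by rw [div_le_iff₀ hn']; linarith,
        by rw [le_div_iff₀ hn']; push_cast at hy; linarith⟩
      rw [abs_sub_comm, abs_of_nonneg (sub_nonneg.2 hxy)] at h4
      exact h4
    | succ m ih =>
      intro x y hxy hy
      by_cases hy' : (n : ℝ) * y ≤ (⌊(n : ℝ) * x⌋ : ℝ) + 1 + m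
      · exact ih x y hxy hy'
      · push Not at hy'
        set z : ℝ := ((⌊(n : ℝ) * x⌋ : ℝ) + 1) / n with hz
        have h1 := Int.floor_le ((n : ℝ) * x)
        have h2 := Int.lt_floor_add_one ((n : ℝ) * x)
        have hnz : (n : ℝ) * z = (⌊(n : ℝ) * x⌋ : ℝ) + 1 := by
          rw [hz]; field_simp
        have hxz : x ≤ z := by rw [hz, le_div_iff₀ hn']; linarith
        have hm : (0 : ℝ) ≤ m := Nat.cast_nonneg m
        have hzy : z ≤ y := by
          rw [hz, div_le_iff₀ hn']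
          linarith
        have hfl : ⌊(n : ℝ) * z⌋ = ⌊(n : ℝ) * x⌋ + 1 := by
          rw [hnz, Int.floor_add_one, Int.floor_intCast]
        have h5 := h ⌊(n : ℝ) * x⌋ x ⟨by rw [div_le_iff₀ hn']; linarith,
          by rw [le_div_iff₀ hn']; linarith⟩ z ⟨by rw [div_le_iff₀ hn']; linarith,
          by rw [le_div_iff₀ hn']; linarith⟩
        rw [abs_sub_comm, abs_of_nonneg (sub_nonneg.2 hxz)] at h5
        have h6 := ih z y hzy (by rw [hfl]; push_cast at hy ⊢; linarith)
        have h7 : f x - f y = (f x - f z) + (f z - f y) := by abel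
        rw [h7]
        refine (norm_add_le _ _).trans ?_
        calc ‖f x - f z‖ + ‖f z - f y‖ ≤ K * (z - x) + K * (y - z) := add_le_add h5 h6
          _ = K * (y - x) := by ring
  have hex : ∀ x y : ℝ, x ≤ y → ‖f x - f y‖ ≤ K * (y - x) := by
    intro x y hxy
    obtain ⟨m, hm⟩ := exists_nat_ge ((n : ℝ) * y - ((⌊(n : ℝ) * x⌋ : ℝ) + 1))
    exact key m x y hxy (by linarith)
  rcases le_total x y with hxy | hxy
  · rw [abs_sub_comm, abs_of_nonneg (sub_nonneg.2 hxy)]
    exact hex x y hxy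
  · rw [abs_of_nonneg (sub_nonneg.2 hxy), norm_sub_rev]
    exact hex y x hxy

/-- the points of the time layer form a loop set -/
theorem loopSet_xpt {P E W : Type*} [Finite P] [Nonempty P] [NormedAddCommGroup E]
    [NormedSpace ℝ E] [NormedAddCommGroup W] [NormedSpace ℝ W] {J n : ℕ} {eps v Lip : ℝ} {C4 : ℕ}
    {H : P → ℝ → E} {e₀ : W} {ι : ℕ → E →ₗ[ℝ] W} (hB : IsBlocks J e₀ ι) (heps : 0 < eps)
    (hn : 0 < n) (hLip : 0 ≤ Lip) (hH : IsPlay n v Lip C4 H) :
    LoopSet {x | ∃ t ∈ Icc (0 : ℝ) 1, ∃ w : ℕ → P, x = xpt n J eps H e₀ ι t w} := by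
  classical
  have hn' : (0 : ℝ) < n := by exact_mod_cast hn
  set p0 : P := Classical.arbitrary P with hp0
  set ext : (Fin J → P) → ℕ → P := fun w j => if h : j < J then w ⟨j, h⟩ else p0 with hext
  have hset : {x | ∃ t ∈ Icc (0 : ℝ) 1, ∃ w : ℕ → P, x = xpt n J eps H e₀ ι t w} =
      ⋃ w : Fin J → P, (fun t => xpt n J eps H e₀ ι t (ext w)) '' Icc (0 : ℝ) 1 := by
    ext x
    simp only [mem_setOf_eq, mem_iUnion, mem_image]
    constructor
    · rintro ⟨t, ht, w, rfl⟩
      refine ⟨fun j => w j, t, ht, ?_⟩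
      unfold xpt
      congr 1
      refine Finset.sum_congr rfl fun j hj => ?_
      have : ext (fun j => w j) j = w j := by
        simp only [hext, Finset.mem_range.1 hj, dif_pos]
      rw [this]
    · rintro ⟨w, t, ht, rfl⟩
      exact ⟨t, ht, ext w, rfl⟩
  rw [hset]
  refine LoopSet.iUnion _ fun w => ?_
  -- the Lipschitz constant of one curve
  have hLipH : ∀ p x y, ‖H p x - H p y‖ ≤ Lip * |x - y| := fun p =>
    lip_of_cells (H p) n hn Lip (hH.lip p)
  have hJ0 : 0 ≤ ‖e₀‖ + J * (eps * Lip) := by positivity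
  have hcurve : LipschitzWith ⟨‖e₀‖ + J * (eps * Lip), hJ0⟩
      (fun t => xpt n J eps H e₀ ι t (ext w)) := by
    refine LipschitzWith.of_dist_le_mul fun x y => ?_
    rw [dist_eq_norm, xpt_sub, Real.dist_eq]
    refine (norm_add_le _ _).trans ?_
    change _ ≤ (‖e₀‖ + J * (eps * Lip)) * |x - y|
    rw [add_mul, norm_smul, Real.norm_eq_abs, mul_comm |x - y| ‖e₀‖]
    refine add_le_add le_rfl ?_
    refine (norm_sum_le _ _).trans ?_
    have hterm : ∀ j ∈ Finset.range J, ‖ι j ((eps * ((n : ℝ) ^ j)⁻¹) •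
        (H (ext w j) ((n : ℝ) ^ j * x) - H (ext w j) ((n : ℝ) ^ j * y)))‖ ≤
          (eps * Lip) * |x - y| := by
      intro j _
      refine (hB.ι_le _ _).trans ?_
      rw [norm_smul, Real.norm_of_nonneg (by positivity)]
      have h1 := hLipH (ext w j) ((n : ℝ) ^ j * x) ((n : ℝ) ^ j * y)
      have h2 : |(n : ℝ) ^ j * x - (n : ℝ) ^ j * y| = (n : ℝ) ^ j * |x - y| := by
        rw [← mul_sub, abs_mul, abs_of_pos (by positivity)]
      rw [h2] at h1
      calc eps * ((n : ℝ) ^ j)⁻¹ * ‖H (ext w j) ((n : ℝ) ^ j * x) - H (ext w j) ((n : ℝ) ^ j * y)‖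
          ≤ eps * ((n : ℝ) ^ j)⁻¹ * (Lip * ((n : ℝ) ^ j * |x - y|)) := by gcongr
        _ = (eps * Lip) * |x - y| := by
          have : ((n : ℝ) ^ j) ≠ 0 := by positivity
          field_simp
    refine (Finset.sum_le_sum hterm).trans ?_
    rw [Finset.sum_const, Finset.card_range, nsmul_eq_mul]
    exact le_of_eq (by ring)
  refine loopSet_of_curve hcurve ?_
  unfold xpt
  rw [zero_smul, zero_add]
  refine Finset.sum_eq_zero fun j _ => ?_
  rw [mul_zero, hH.zero _ 0 0 (by norm_num), smul_zero, map_zero]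

end Vale.Agent.P208.H560
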