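import Vale.Agent.P208.H560.Defs
import Vale.Agent.P208.H560.Coarse
import Vale.Agent.P208.H257.Main

/-!
# P208 (H560): assembly, in Mathlib terms
-/

namespace Vale.Agent.P208.H560

open scoped NNReal
open Set

theorem IsDoubling.mono {l l' : ℕ} {X : Type} [MetricSpace X] (h : IsDoubling l X) (hl : l ≤ l') :
    IsDoubling l' X := by
  intro x r hr
  obtain ⟨T, h1, h2⟩ := h x r hr
  exact ⟨T, h1.trans hl, h2⟩

theorem isDoubling_of {E : Type} [MetricSpace E] {l : ℕ} {X : Set E} (h : DoublingWith l X) :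
    IsDoubling (l * l) X := by
  classical
  intro x r hr
  obtain ⟨T, h1, h2, h3⟩ := h.strict x x.2 r hr
  refine ⟨T.attach.image fun z => (⟨z.1, h2 z.1 z.2⟩ : X), ?_, ?_⟩
  · exact Finset.card_image_le.trans (by rw [Finset.card_attach]; exact h1)
  · intro y hy
    obtain ⟨z, hz, hyz⟩ := h3 y y.2 (Metric.mem_closedBall.1 hy)
    refine mem_iUnion₂.2 ⟨⟨z, h2 z hz⟩, ?_, ?_⟩
    · exact Finset.mem_image.2 ⟨⟨z, hz⟩, Finset.mem_attach _ _, rfl⟩
    · exact Metric.mem_ball.2 hyz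

theorem not_biLipschitz {E : Type} [MetricSpace E] {X : Set E}
    (h : ∀ (k : ℕ) (D : ℝ), ¬ Embeds X k D) :
    ¬ ∃ (k : ℕ) (f : X → EuclideanSpace ℝ (Fin k)) (K L : ℝ≥0),
      LipschitzWith K f ∧ AntilipschitzWith L f := by
  classical
  rintro ⟨k, f, K, L, hK, hL⟩
  have hL1 : (0 : ℝ) < (L : ℝ) + 1 := by positivity
  refine h k ((K : ℝ) * (L + 1)) ⟨fun x => if hx : x ∈ X then f ⟨x, hx⟩ else 0, 1 / (L + 1),
    by positivity, fun x hx y hy => ?_⟩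
  simp only [hx, hy, dif_pos]
  have h1 := hK.dist_le_mul ⟨x, hx⟩ ⟨y, hy⟩
  have h2 := hL.le_mul_dist ⟨x, hx⟩ ⟨y, hy⟩
  have h3 : dist (⟨x, hx⟩ : X) ⟨y, hy⟩ = dist x y := rfl
  rw [h3] at h1 h2
  constructor
  · rw [one_div, inv_mul_le_iff₀ hL1]
    have := dist_nonneg (x := f ⟨x, hx⟩) (y := f ⟨y, hy⟩)
    linarith
  · refine h1.trans (le_of_eq ?_)
    field_simp

/-- the absolute doubling constant of the final statement -/
def lamF : ℕ := max ((lamC * lamC) * (lamC * lamC)) (D257.lam0 * D257.lam0)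

/-- the arc -/
theorem main_arc {Y : Type} [NormedAddCommGroup Y] [NormedSpace ℝ Y]
    (hY : ¬ FiniteDimensional ℝ Y) : ∃ (γ : unitInterval → Y) (K : ℝ≥0), LipschitzWith K γ ∧
      Function.Injective γ ∧
      (∀ δ : ℝ, 0 < δ → ∃ c : ℝ, 0 < c ∧ ∀ s t : unitInterval, δ ≤ s → δ ≤ t →
        c * dist s t ≤ dist (γ s) (γ t)) ∧
      IsDoubling lamF (range γ) ∧
      ¬ ∃ (k : ℕ) (f : range γ → EuclideanSpace ℝ (Fin k)) (K L : ℝ≥0),
        LipschitzWith K f ∧ AntilipschitzWith L f := by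
  obtain ⟨γ, h1, h2, h3, h4, h5⟩ := exists_arc hY
  have hr : range (fun t : unitInterval => γ t) = γ '' Icc (0 : ℝ) 1 := by
    ext x
    constructor
    · rintro ⟨t, rfl⟩
      exact ⟨t, t.2, rfl⟩
    · rintro ⟨t, ht, rfl⟩
      exact ⟨⟨t, ht⟩, rfl⟩
  refine ⟨fun t => γ t, 10, ?_, ?_, ?_, ?_, ?_⟩
  · intro s t
    exact h1 s t
  · intro s t hst
    exact Subtype.ext (h2 s.2 t.2 hst)
  · intro δ hδ
    obtain ⟨c, hc, hc2⟩ := h3 δ hδ
    refine ⟨c, hc, fun s t hs ht => ?_⟩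
    have := hc2 s ⟨hs, s.2.2⟩ t ⟨ht, t.2.2⟩
    rwa [← Real.dist_eq] at this
  · rw [hr]
    exact (isDoubling_of h4).mono (le_max_left _ _)
  · rw [hr]
    exact not_biLipschitz h5

/-- the discrete set -/
theorem main_coarse {Y : Type} [NormedAddCommGroup Y] [NormedSpace ℝ Y]
    (hY : ¬ FiniteDimensional ℝ Y) : ∃ X : Set Y, X.Pairwise (fun x y => 1 ≤ dist x y) ∧
      IsDoubling lamF X ∧
      ∀ (k : ℕ) (f : X → EuclideanSpace ℝ (Fin k)) (L C : ℝ), 0 < L →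
        ¬ ∀ x y : X, dist x y / L - C ≤ dist (f x) (f y) ∧
          dist (f x) (f y) ≤ L * dist x y + C := by
  classical
  obtain ⟨X, h1, h2, h3⟩ := exists_coarse hY
  refine ⟨X, fun x hx y hy hxy => h1 x hx y hy hxy, (isDoubling_of h2).mono (le_max_right _ _),
    fun k f L C hL hf => ?_⟩
  refine h3 k L C (fun x => if hx : x ∈ X then f ⟨x, hx⟩ else 0) hL fun x hx y hy => ?_
  simp only [hx, hy, dif_pos]
  exact hf ⟨x, hx⟩ ⟨y, hy⟩

/-- finite sets -/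
theorem main_finite {Y : Type} [NormedAddCommGroup Y] [NormedSpace ℝ Y]
    (hY : ¬ FiniteDimensional ℝ Y) (k : ℕ) (D : ℝ) : ∃ X : Set Y, X.Finite ∧ IsDoubling lamF X ∧
      ∀ (f : X → EuclideanSpace ℝ (Fin k)) (a : ℝ), 0 < a →
        ¬ ∀ x y : X, a * dist x y ≤ dist (f x) (f y) ∧ dist (f x) (f y) ≤ D * a * dist x y := by
  classical
  obtain ⟨X, h1, h2, h3⟩ := D257.exists_finite hY k D
  refine ⟨X, h1, (isDoubling_of h2).mono (le_max_right _ _), fun f a ha hf => h3 ?_⟩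
  refine ⟨fun x => if hx : x ∈ X then f ⟨x, hx⟩ else 0, a, ha, fun x hx y hy => ?_⟩
  simp only [hx, hy, dif_pos]
  exact hf ⟨x, hx⟩ ⟨y, hy⟩

end Vale.Agent.P208.H560
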